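import Crest.Agent.X326.TC.Cases
import Crest.Agent.X326.TC.ListRun

/-!
# Unary counters in the time calculus

`TU P T n`: the number `n x` is computed in unary within the budget `T` on the domain `P`.
-/

set_option autoImplicit false
set_option linter.dupNamespace false

namespace Crest.Agent.X326

open Crest.Agent.Lib.PT Function

variable {α β γ : Type} [PTCode α] [PTCode β] [PTCode γ] {P P' : α → Prop} {T T' : α → ℕ}

/-- the number `n x` is computed in unary within the budget -/
@[fun_prop]
def TU (P : Dom α) (T : Cost α) (n : α → ℕ) : Prop := TC P T (fun x => Un.mk (n x))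

/-- unary linear time -/
scoped notation "LinU" => TU (fun _ => True) (fun _ => 0)

theorem TU.tc {n : α → ℕ} (hn : TU P T n) : TC P T (fun x => Un.mk (n x)) := hn

@[fun_prop]
theorem TC.unMk {n : α → ℕ} (hn : TU P T n) : TC P T (fun x => Un.mk (n x)) := hn

@[fun_prop]
theorem TU.val {f : α → Un} (hf : TC P T f) : TU P T (fun x => (f x).val) := hf

theorem TU.congr {m n : α → ℕ} (hm : TU P T m) (h : ∀ x, P x → m x = n x) : TU P T n :=
  TC.congr hm (fun x hx => by rw [h x hx])

theorem TU.of_eq {m n : α → ℕ} (hm : TU P T m) (h : ∀ x, m x = n x) : TU P T n :=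
  hm.congr (fun x _ => h x)

theorem TU.mono {n : α → ℕ} (hn : TU P T n) (hP : ∀ x, P' x → P x) (hT : Bud P' T' T) :
    TU P' T' n := TC.mono hn hP hT

theorem TU.restrict {n : α → ℕ} (hn : TU P T n) (hP : ∀ x, P' x → P x) : TU P' T n :=
  TC.restrict hn hP

theorem TU.budget {n : α → ℕ} (hn : TU P T n) (hT : Bud P T' T) : TU P T' n :=
  TC.budget hn hT


/-- a number computed in unary is within the budget -/
theorem TU.bud {n : α → ℕ} (hn : TU P T n) : Bud P T n :=
  (TC.sz hn).mono (fun x _ => by simp)

@[fun_prop]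
theorem TU.const (n : ℕ) : TU P T (fun _ : α => n) := TC.const _

@[fun_prop]
theorem TU.comp_lin {n : β → ℕ} {f : α → β} (hn : TU (fun _ => True) (fun _ => 0) n)
    (hf : TC P T f) : TU P T (fun x => n (f x)) :=
  TC.comp_lin (g := fun b => Un.mk (n b)) hn hf

theorem TU.comp {Q : β → Prop} {S : β → ℕ} {n : β → ℕ} {f : α → β} (hn : TU Q S n)
    (hf : TC P T f) (hQ : ∀ x, P x → Q (f x)) (hS : Bud P T (fun x => S (f x))) :
    TU P T (fun x => n (f x)) :=
  TC.comp (g := fun b => Un.mk (n b)) hn hf hQ hS

/-- the size of a code, in unary -/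
@[fun_prop]
theorem TU.sz {f : α → β} (hf : TC P T f) : TU P T (fun x => sz (f x)) := by
  refine TC.raw (LinRaw.flatMap (fun _ => [true])) hf (fun x _ => ?_)
  simp only [enc_un, Lib.PT.sz]
  induction enc (f x) with
  | nil => rfl
  | cons b l ih => simp [ih, List.replicate_succ]

@[fun_prop]
theorem TU.add {m n : α → ℕ} (hm : TU P T m) (hn : TU P T n) : TU P T (fun x => m x + n x) :=
  TC.raw LinRaw.append (TC.prodMk hm hn) (fun x _ => by simp)

@[fun_prop]
theorem TU.succ {n : α → ℕ} (hn : TU P T n) : TU P T (fun x => (n x).succ) :=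
  TU.add hn (TU.const 1)

@[fun_prop]
theorem TU.pred {n : α → ℕ} (hn : TU P T n) : TU P T (fun x => (n x).pred) :=
  TC.raw LinRaw.tail hn (fun x _ => by simp)

/-- a unary number as a list of units -/
theorem TU.units {n : α → ℕ} (hn : TU P T n) : TC P T (fun x => List.replicate (n x) ()) := by
  refine TC.raw (LinRaw.flatMap (fun _ => [false])) hn (fun x _ => ?_)
  simp only [enc_un]
  induction n x with
  | zero => rfl
  | succ k ih => simp [List.replicate_succ, ih, pair_nil]

theorem Lin.lengthU : Lin (fun l : List β => Un.mk l.length) :=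
  TC.of_run ListRun.lengthP (Bud.of_le 0 13 2 (fun _ _ => by simp)) (fun l _ => ListRun.run_length l)

/-- the length of a list, in unary -/
@[fun_prop]
theorem TU.length {l : α → List β} (hl : TC P T l) : TU P T (fun x => (l x).length) :=
  TC.comp_lin (g := fun l : List β => Un.mk l.length) Lin.lengthU hl

theorem Lin.splitU :
    Lin (fun p : Un × List β => (p.2.take p.1.val, p.2.drop p.1.val)) :=
  TC.of_run ListRun.splitP (Bud.of_le 0 20 10 (fun _ _ => by simp))
    (fun p _ => ListRun.run_split p)

/-- `take` and `drop` at once -/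
theorem TC.takeDrop {n : α → ℕ} {l : α → List β} (hn : TU P T n) (hl : TC P T l) :
    TC P T (fun x => ((l x).take (n x), (l x).drop (n x))) :=
  TC.comp_lin (f := fun x => (Un.mk (n x), l x)) Lin.splitU (TC.prodMk hn hl)

@[fun_prop]
theorem TC.take {n : α → ℕ} {l : α → List β} (hn : TU P T n) (hl : TC P T l) :
    TC P T (fun x => (l x).take (n x)) := (TC.takeDrop hn hl).fst

@[fun_prop]
theorem TC.drop {n : α → ℕ} {l : α → List β} (hn : TU P T n) (hl : TC P T l) :
    TC P T (fun x => (l x).drop (n x)) := (TC.takeDrop hn hl).snd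

@[fun_prop]
theorem TU.sub {m n : α → ℕ} (hm : TU P T m) (hn : TU P T n) : TU P T (fun x => m x - n x) :=
  (TU.length (TC.drop hn hm.units)).of_eq (fun x => by simp)

@[fun_prop]
theorem TU.min {m n : α → ℕ} (hm : TU P T m) (hn : TU P T n) :
    TU P T (fun x => min (m x) (n x)) :=
  (TU.length (TC.take hm hn.units)).of_eq (fun x => by simp)

@[fun_prop]
theorem TU.max {m n : α → ℕ} (hm : TU P T m) (hn : TU P T n) :
    TU P T (fun x => max (m x) (n x)) :=
  (hm.add (hn.sub hm)).of_eq (fun x => by omega)

@[fun_prop]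
theorem TU.cond {c : α → Bool} {m n : α → ℕ} (hc : TC P T c) (hm : TU P T m) (hn : TU P T n) :
    TU P T (fun x => bif c x then m x else n x) :=
  TC.of_eq (TC.cond hc hm hn) (fun x => by cases h : c x <;> simp [h])

theorem TU.ite' {p : α → Prop} [DecidablePred p] {m n : α → ℕ}
    (hc : TC P T (fun x => decide (p x))) (hm : TU (fun x => P x ∧ p x) T m)
    (hn : TU (fun x => P x ∧ ¬ p x) T n) : TU P T (fun x => if p x then m x else n x) :=
  TC.of_eq (TC.ite' hc hm hn) (fun x => by by_cases h : p x <;> simp [h])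

/-- test for zero -/
theorem TU.decide_eq_zero {n : α → ℕ} (hn : TU P T n) : TC P T (fun x => decide (n x = 0)) := by
  refine (TC.iteRaw (c := fun x => Un.mk (n x)) (f := fun _ => false) (g := fun _ => true) hn
    (TC.const _) (TC.const _)).of_eq (fun x => ?_)
  simp only [enc_un]
  cases n x <;> simp [List.replicate_succ]

/-- comparison of unary numbers -/
theorem TU.decide_le {m n : α → ℕ} (hm : TU P T m) (hn : TU P T n) :
    TC P T (fun x => decide (m x ≤ n x)) :=
  (hm.sub hn).decide_eq_zero.of_eq (fun x => by simp [Nat.sub_eq_zero_iff_le])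

theorem TU.decide_lt {m n : α → ℕ} (hm : TU P T m) (hn : TU P T n) :
    TC P T (fun x => decide (m x < n x)) :=
  (hm.succ.decide_le hn).of_eq (fun x => by simp)

theorem TU.decide_eq {m n : α → ℕ} (hm : TU P T m) (hn : TU P T n) :
    TC P T (fun x => decide (m x = n x)) :=
  ((hm.sub hn).add (hn.sub hm)).decide_eq_zero.of_eq (fun x => by
    simp only [decide_eq_decide]; omega)

@[fun_prop]
theorem TP.leU {m n : α → ℕ} (hm : TU P T m) (hn : TU P T n) : TP P T (fun x => m x ≤ n x) :=
  TP.of_tc (hm.decide_le hn)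

@[fun_prop]
theorem TP.ltU {m n : α → ℕ} (hm : TU P T m) (hn : TU P T n) : TP P T (fun x => m x < n x) :=
  TP.of_tc (hm.decide_lt hn)

@[fun_prop]
theorem TP.eqU {m n : α → ℕ} (hm : TU P T m) (hn : TU P T n) : TP P T (fun x => m x = n x) :=
  TP.of_tc (hm.decide_eq hn)

@[fun_prop]
theorem TU.iteP {p : α → Prop} [DecidablePred p] {m n : α → ℕ} (hc : TP P T p) (hm : TU P T m)
    (hn : TU P T n) : TU P T (fun x => if p x then m x else n x) :=
  TU.ite' hc.decide (hm.restrict (fun _ h => h.1)) (hn.restrict (fun _ h => h.1))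


@[fun_prop]
theorem Bud.lengthL {l : α → List β} (hl : TC P T l) : Bud P T (fun x => (l x).length) :=
  (TU.length hl).bud

@[fun_prop]
theorem Bud.unVal {f : α → Un} (hf : TC P T f) : Bud P T (fun x => (f x).val) := (TU.val hf).bud

@[fun_prop]
theorem Bud.min_left {m : α → ℕ} (n : α → ℕ) (hm : Bud P T m) :
    Bud P T (fun x => Min.min (m x) (n x)) := hm.mono (fun _ _ => min_le_left _ _)

@[fun_prop]
theorem Bud.min_right (m : α → ℕ) {n : α → ℕ} (hn : Bud P T n) :
    Bud P T (fun x => Min.min (m x) (n x)) := hn.mono (fun _ _ => min_le_right _ _)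

/-- multiplication by a fixed constant -/
@[fun_prop]
theorem TU.const_mul (c : ℕ) {n : α → ℕ} (hn : TU P T n) : TU P T (fun x => c * n x) := by
  induction c with
  | zero => exact (TU.const 0).of_eq (fun x => by simp)
  | succ c ih => exact (ih.add hn).of_eq (fun x => by ring)

@[fun_prop]
theorem TU.mul_const (c : ℕ) {n : α → ℕ} (hn : TU P T n) : TU P T (fun x => n x * c) :=
  (hn.const_mul c).of_eq (fun x => by ring)

end Crest.Agent.X326
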