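import Crest.Agent.Lib.PT.Iter
import Crest.Agent.Lib.PT.ArithPure
import Crest.Agent.X326.TC.TU

-- ▼ part X326/TC/FstRaw
section

/-!
# Finite-state transducers with two input streams run in linear time (raw level)

`run2 δ s x y` reads the bit strings `x` and `y` in parallel (the shorter one padded by `none`),
and returns the final state and the concatenation of the emitted words.
`exists_run2`: a `Cmd` program maps `pair x y` to `pair (tag final state) output` in linear time.
-/

set_option autoImplicit false

namespace Crest.Agent.X326.Fst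

open Crest.Agent.Lib.PT Function

variable {σ : Type}

/-- two-stream transducer semantics -/
def run2 (δ : σ → Option Bool → Option Bool → σ × List Bool) :
    σ → List Bool → List Bool → σ × List Bool
  | s, [], [] => (s, [])
  | s, a :: x, [] =>
      ((run2 δ (δ s (some a) none).1 x []).1,
        (δ s (some a) none).2 ++ (run2 δ (δ s (some a) none).1 x []).2)
  | s, [], b :: y =>
      ((run2 δ (δ s none (some b)).1 [] y).1,
        (δ s none (some b)).2 ++ (run2 δ (δ s none (some b)).1 [] y).2)
  | s, a :: x, b :: y =>
      ((run2 δ (δ s (some a) (some b)).1 x y).1,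
        (δ s (some a) (some b)).2 ++ (run2 δ (δ s (some a) (some b)).1 x y).2)
termination_by _ x y => x.length + y.length

theorem run2_nil_nil (δ : σ → Option Bool → Option Bool → σ × List Bool) (s : σ) :
    run2 δ s [] [] = (s, []) := by rw [run2]

theorem run2_cons_left (δ : σ → Option Bool → Option Bool → σ × List Bool) (s : σ) (a : Bool)
    (x y : List Bool) :
    run2 δ s (a :: x) y = ((run2 δ (δ s (some a) y.head?).1 x y.tail).1,
      (δ s (some a) y.head?).2 ++ (run2 δ (δ s (some a) y.head?).1 x y.tail).2) := by
  cases y with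
  | nil => rw [run2]; rfl
  | cons b y => rw [run2]; rfl

theorem run2_nil_cons (δ : σ → Option Bool → Option Bool → σ × List Bool) (s : σ) (b : Bool)
    (y : List Bool) :
    run2 δ s [] (b :: y) = ((run2 δ (δ s none (some b)).1 [] y).1,
      (δ s none (some b)).2 ++ (run2 δ (δ s none (some b)).1 [] y).2) := by
  rw [run2]

theorem run2_cons_cons (δ : σ → Option Bool → Option Bool → σ × List Bool) (s : σ) (a b : Bool)
    (x y : List Bool) :
    run2 δ s (a :: x) (b :: y) = ((run2 δ (δ s (some a) (some b)).1 x y).1,
      (δ s (some a) (some b)).2 ++ (run2 δ (δ s (some a) (some b)).1 x y).2) := by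
  rw [run2]

theorem run2_cons_nil (δ : σ → Option Bool → Option Bool → σ × List Bool) (s : σ) (a : Bool)
    (x : List Bool) :
    run2 δ s (a :: x) [] = ((run2 δ (δ s (some a) none).1 x []).1,
      (δ s (some a) none).2 ++ (run2 δ (δ s (some a) none).1 x []).2) := by
  rw [run2]

theorem length_run2_le (δ : σ → Option Bool → Option Bool → σ × List Bool) {B : ℕ}
    (hB : ∀ s a b, (δ s a b).2.length ≤ B) (s : σ) (x y : List Bool) :
    (run2 δ s x y).2.length ≤ B * (x.length + y.length) := by
  fun_induction run2 δ s x y with
  | case1 s => simp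
  | case2 s a x ih =>
    have := hB s (some a) none
    simp only [List.length_append, List.length_cons, List.length_nil] at ih ⊢
    nlinarith
  | case3 s b y ih =>
    have := hB s none (some b)
    simp only [List.length_append, List.length_cons, List.length_nil] at ih ⊢
    nlinarith
  | case4 s a x b y ih =>
    have := hB s (some a) (some b)
    simp only [List.length_append, List.length_cons] at ih ⊢
    nlinarith

/-! ### dispatch on a unary number -/

/-- run the `i`-th command, where stack `k` holds `i` in unary (the number is consumed) -/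
def dispatch (k : ℕ) : List Cmd → Cmd
  | [] => .skip
  | c :: cs => .ite k c (.seq (.pop k) (dispatch k cs)) (.seq (.pop k) (dispatch k cs))

theorem run_dispatch (k : ℕ) (cs : List Cmd) (i : ℕ) (hi : i < cs.length) (S S' : Store) (n : ℕ)
    (hS : S k = List.replicate i true) (h : Run cs[i] (update S k []) S' n) :
    Run (dispatch k cs) S S' (2 * i + 1 + n) := by
  induction cs generalizing i S with
  | nil => simp at hi
  | cons c cs ih =>
    cases i with
    | zero =>
      have e : update S k [] = S := by
        rw [← show S k = [] from hS]; simp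
      rw [e] at h
      exact (Run.ite_nil hS h).mono (by omega)
    | succ i =>
      have h1 := ih i (by simpa using hi) (update S k (S k).tail)
        (by simp [hS, List.replicate_succ]) (by simpa using h)
      exact (Run.ite_true (l := List.replicate i true) (by simpa [List.replicate_succ] using hS)
        ((run_pop k S).seq h1)).mono (by omega)

/-! ### the program -/

section prog

variable (δ : σ → Option Bool → Option Bool → σ × List Bool) (idx : σ → ℕ)

/-- the action for known state and heads: streams on stacks `3` and `0`, reversed output on `1`,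
state on `2` -/
def act (s : σ) (a b : Option Bool) : Cmd :=
  .seq (.pop 3) (.seq (.pop 0) (.seq (pushAll 1 (δ s a b).2.reverse)
    (pushAll 2 (List.replicate (idx (δ s a b).1) true))))

/-- the action for known state and first head -/
def act1 (s : σ) (a : Option Bool) : Cmd :=
  .ite 0 (act δ idx s a none) (act δ idx s a (some true)) (act δ idx s a (some false))

/-- the action for known state -/
def act0 (s : σ) : Cmd :=
  .ite 3 (act1 δ idx s none) (act1 δ idx s (some true)) (act1 δ idx s (some false))

theorem run_act (s : σ) (a b : Option Bool) (x y o : List Bool) :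
    Run (act δ idx s a b) (st4 y o [] x)
      (st4 y.tail ((δ s a b).2.reverse ++ o) (List.replicate (idx (δ s a b).1) true) x.tail)
      (4 + (δ s a b).2.length + idx (δ s a b).1) := by
  refine ((run_pop 3 _).seq ((run_pop 0 _).seq ((run_pushAll 1 _ _).seq
    (run_pushAll 2 _ _)))).of_eq ?_ ?_
  · simp
  · simp; omega

theorem run_act1 (s : σ) (a : Option Bool) (x y o : List Bool) :
    Run (act1 δ idx s a) (st4 y o [] x)
      (st4 y.tail ((δ s a y.head?).2.reverse ++ o)
        (List.replicate (idx (δ s a y.head?).1) true) x.tail)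
      (5 + (δ s a y.head?).2.length + idx (δ s a y.head?).1) := by
  rcases y with _ | ⟨b, y⟩
  · exact (Run.ite_nil rfl (run_act δ idx s a none x [] o)).of_eq rfl (by simp; omega)
  · cases b
    · exact (Run.ite_false (l := y) rfl (run_act δ idx s a (some false) x _ o)).of_eq rfl
        (by simp; omega)
    · exact (Run.ite_true (l := y) rfl (run_act δ idx s a (some true) x _ o)).of_eq rfl
        (by simp; omega)

theorem run_act0 (s : σ) (x y o : List Bool) :
    Run (act0 δ idx s) (st4 y o [] x)
      (st4 y.tail ((δ s x.head? y.head?).2.reverse ++ o)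
        (List.replicate (idx (δ s x.head? y.head?).1) true) x.tail)
      (6 + (δ s x.head? y.head?).2.length + idx (δ s x.head? y.head?).1) := by
  rcases x with _ | ⟨a, x⟩
  · exact (Run.ite_nil rfl (run_act1 δ idx s none [] y o)).of_eq rfl (by simp; omega)
  · cases a
    · exact (Run.ite_false (l := x) rfl (run_act1 δ idx s (some false) _ y o)).of_eq rfl
        (by simp; omega)
    · exact (Run.ite_true (l := x) rfl (run_act1 δ idx s (some true) _ y o)).of_eq rfl
        (by simp; omega)

variable (L : List σ)

/-- loop body -/
def body : Cmd := dispatch 2 (L.map (act0 δ idx))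

variable {δ idx L}

theorem run_body {N B : ℕ} (hL : ∀ s, ∃ h : idx s < L.length, L[idx s] = s) (hN : L.length ≤ N)
    (hB : ∀ s a b, (δ s a b).2.length ≤ B) (s : σ) (x y o : List Bool) :
    Run (body δ idx L) (st4 y o (List.replicate (idx s) true) x)
      (st4 y.tail ((δ s x.head? y.head?).2.reverse ++ o)
        (List.replicate (idx (δ s x.head? y.head?).1) true) x.tail) (3 * N + B + 7) := by
  obtain ⟨h1, h2⟩ := hL s
  obtain ⟨h3, -⟩ := hL (δ s x.head? y.head?).1
  have h4 := hB s x.head? y.head?
  refine (run_dispatch 2 (L.map (act0 δ idx)) (idx s) (by simpa using h1) _ _ _ rfl ?_).mono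
    (n := 2 * idx s + 1 + (6 + (δ s x.head? y.head?).2.length + idx (δ s x.head? y.head?).1))
    (by omega)
  simp only [List.getElem_map, h2, update_st4_two]
  exact run_act0 δ idx s x y o

theorem run_loop0 {N B : ℕ} (hL : ∀ s, ∃ h : idx s < L.length, L[idx s] = s) (hN : L.length ≤ N)
    (hB : ∀ s a b, (δ s a b).2.length ≤ B) (s : σ) (y o : List Bool) :
    Run (.loop 0 (body δ idx L)) (st4 y o (List.replicate (idx s) true) [])
      (st4 [] ((run2 δ s [] y).2.reverse ++ o) (List.replicate (idx (run2 δ s [] y).1) true) [])
      ((3 * N + B + 8) * y.length + 1) := by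
  induction y generalizing s o with
  | nil =>
    rw [run2_nil_nil]
    exact (Run.loop_nil rfl).of_eq (by simp) (by simp)
  | cons b y ih =>
    have h1 := run_body hL hN hB s [] (b :: y) o
    simp only [List.head?_nil, List.head?_cons, List.tail_cons, List.tail_nil] at h1
    refine (Run.loop_cons (by simp) h1 (ih _ _)).of_eq ?_ ?_
    · rw [run2_nil_cons]; simp
    · simp only [List.length_cons]; nlinarith

theorem run_loops {N B : ℕ} (hL : ∀ s, ∃ h : idx s < L.length, L[idx s] = s) (hN : L.length ≤ N)
    (hB : ∀ s a b, (δ s a b).2.length ≤ B) (s : σ) (x y o : List Bool) :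
    Run (.seq (.loop 3 (body δ idx L)) (.loop 0 (body δ idx L)))
      (st4 y o (List.replicate (idx s) true) x)
      (st4 [] ((run2 δ s x y).2.reverse ++ o) (List.replicate (idx (run2 δ s x y).1) true) [])
      ((3 * N + B + 8) * (x.length + y.length) + 2) := by
  induction x generalizing s y o with
  | nil =>
    exact ((Run.loop_nil rfl).seq (run_loop0 hL hN hB s y o)).of_eq rfl (by simp; omega)
  | cons a x ih =>
    have h1 := run_body hL hN hB s (a :: x) y o
    simp only [List.head?_cons, List.tail_cons] at h1
    obtain ⟨t, ht, h2⟩ := ih (δ s (some a) y.head?).1 y.tail ((δ s (some a) y.head?).2.reverse ++ o)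
    cases h2 with
    | @seq _ _ _ S1 _ t1 t2 h3 h4 =>
      refine ((Run.loop_cons (by simp) h1 h3.run).seq h4.run).of_eq ?_ ?_
      · rw [run2_cons_left]; simp
      · have : y.tail.length ≤ y.length := by simp
        simp only [List.length_cons]
        nlinarith

end prog

/-- A two-stream finite-state transducer runs in linear time. -/
theorem exists_run2 [Finite σ] (δ : σ → Option Bool → Option Bool → σ × List Bool) (s₀ : σ)
    (tag : σ → List Bool) :
    ∃ (c : Cmd) (C : ℕ), ∀ x y : List Bool,
      Run c (init (pair x y)) (init (pair (tag (run2 δ s₀ x y).1) (run2 δ s₀ x y).2))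
        (C * ((pair x y).length + 1)) := by
  classical
  have := Fintype.ofFinite σ
  let L : List σ := (Finset.univ : Finset σ).toList
  let idx : σ → ℕ := fun s => L.idxOf s
  have hL : ∀ s, ∃ h : idx s < L.length, L[idx s] = s := fun s =>
    ⟨List.idxOf_lt_length_of_mem (by simp [L]), List.getElem_idxOf _⟩
  obtain ⟨B, hB⟩ : ∃ B, ∀ s a b, (δ s a b).2.length ≤ B := by
    refine ⟨∑ q : σ × Option Bool × Option Bool, (δ q.1 q.2.1 q.2.2).2.length, fun s a b => ?_⟩
    exact Finset.single_le_sum (f := fun q : σ × Option Bool × Option Bool =>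
      (δ q.1 q.2.1 q.2.2).2.length) (fun _ _ => Nat.zero_le _) (Finset.mem_univ (s, a, b))
  obtain ⟨G, hG⟩ : ∃ G, ∀ s, (tag s).length ≤ G := by
    refine ⟨∑ s, (tag s).length, fun s => ?_⟩
    exact Finset.single_le_sum (f := fun s => (tag s).length) (fun _ _ => Nat.zero_le _)
      (Finset.mem_univ s)
  set N := L.length with hN
  refine ⟨.seq parse (.seq (mv 1 3) (.seq (pushAll 2 (List.replicate (idx s₀) true))
    (.seq (.seq (.loop 3 (body δ idx L)) (.loop 0 (body δ idx L)))
    (.seq (mv 1 0) (dispatch 2 (L.map fun s => pushAll 0 (pair (tag s) []))))))),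
    6 * N + 5 * B + 2 * G + 30, fun x y => ?_⟩
  have h1 := run_parse (pair x y)
  rw [fst_pair, snd_pair] at h1
  have e1 : st3 y x.reverse [] = st4 y x.reverse [] [] := by
    funext j; rcases j with _ | _ | _ | _ | j <;> simp [st3, st4]
  rw [e1] at h1
  have h2 : Run (mv 1 3) (st4 y x.reverse [] []) (st4 y [] [] x) (4 * x.length + 1) :=
    (run_mv (by decide) _).of_eq (by simp) (by simp)
  have h3 : Run (pushAll 2 (List.replicate (idx s₀) true)) (st4 y [] [] x)
      (st4 y [] (List.replicate (idx s₀) true) x) (N + 1) :=
    (run_pushAll 2 _ _).of_eq (by simp) (by have := (hL s₀).1; simp; omega)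
  have h4 := run_loops (δ := δ) hL le_rfl hB s₀ x y []
  set r := run2 δ s₀ x y with hr
  have hlen : r.2.length ≤ B * (x.length + y.length) := length_run2_le δ hB s₀ x y
  rw [List.append_nil] at h4
  have h5 : Run (mv 1 0) (st4 [] r.2.reverse (List.replicate (idx r.1) true) [])
      (st4 r.2 [] (List.replicate (idx r.1) true) []) (4 * r.2.length + 1) :=
    (run_mv (by decide) _).of_eq (by simp) (by simp)
  have h6 : Run (dispatch 2 (L.map fun s => pushAll 0 (pair (tag s) [])))
      (st4 r.2 [] (List.replicate (idx r.1) true) []) (init (pair (tag r.1) r.2))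
      (2 * N + 1 + (2 * G + 2)) := by
    obtain ⟨g1, g2⟩ := hL r.1
    refine (run_dispatch 2 _ (idx r.1) (by simpa using g1) _ _ (2 * G + 2) rfl ?_).mono (by omega)
    simp only [List.getElem_map, g2, update_st4_two]
    refine (run_pushAll 0 _ _).of_eq ?_ ?_
    · rw [init_eq_st4]; simp [pair]
    · have := hG r.1
      simp; omega
  refine (h1.seq (h2.seq (h3.seq (h4.seq (h5.seq h6))))).mono ?_
  rw [length_pair]
  nlinarith



end Crest.Agent.X326.Fst
private theorem rz_bada7fbd6d : type_of% @_root_.Crest.Agent.X326.Fst.run2.eq_1 := @_root_.Crest.Agent.X326.Fst.run2.eq_1 -- L20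
private theorem rz_bc21fefa46 : type_of% @_root_.Crest.Agent.X326.Fst.run2.induct_unfolding := @_root_.Crest.Agent.X326.Fst.run2.induct_unfolding -- L20
private theorem rz_6b2a2b4a6b : type_of% @_root_.Crest.Agent.X326.Fst.run2._unary.induct_unfolding := @_root_.Crest.Agent.X326.Fst.run2._unary.induct_unfolding -- L20
end

-- ▼ part X326/TC/BitsPure
section

/-!
# Bit lists (least significant bit first): values, normalisation, and the transducers for
addition, subtraction, comparison, bitwise operations, fields
-/

set_option autoImplicit false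

namespace Crest.Agent.X326

open Crest.Agent.Lib.PT Fst

/-- value of a list of bits, least significant first -/
def lsb (l : List Bool) : ℕ := l.foldr (fun b n => Nat.bit b n) 0

@[simp] theorem lsb_nil : lsb [] = 0 := rfl

theorem lsb_cons (b : Bool) (l : List Bool) : lsb (b :: l) = b.toNat + 2 * lsb l := by
  show Nat.bit b (lsb l) = _
  rw [Nat.bit_val]; ring

theorem lsb_cons_bit (b : Bool) (l : List Bool) : lsb (b :: l) = Nat.bit b (lsb l) := rfl

@[simp] theorem lsb_bits (n : ℕ) : lsb n.bits = n := by
  induction n using Nat.binaryRec' with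
  | zero => simp
  | bit b n h ih => rw [Nat.bits_append_bit n b h, lsb_cons_bit, ih]

theorem lsb_append (l l' : List Bool) : lsb (l ++ l') = lsb l + 2 ^ l.length * lsb l' := by
  induction l with
  | nil => simp
  | cons b l ih => rw [List.cons_append, lsb_cons, lsb_cons, ih, List.length_cons]; ring

theorem lsb_lt (l : List Bool) : lsb l < 2 ^ l.length := by
  induction l with
  | nil => simp
  | cons b l ih =>
    rw [lsb_cons, List.length_cons, pow_succ]
    have := b.toNat_le
    omega


@[simp] theorem lsb_replicate_false (k : ℕ) : lsb (List.replicate k false) = 0 := by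
  induction k with
  | zero => rfl
  | succ k ih => rw [List.replicate_succ, lsb_cons, ih]; rfl


theorem lsb_take (k : ℕ) (l : List Bool) : lsb (l.take k) = lsb l % 2 ^ k := by
  by_cases h : l.length ≤ k
  · rw [List.take_of_length_le h, Nat.mod_eq_of_lt]
    exact (lsb_lt l).trans_le (Nat.pow_le_pow_right (by norm_num) h)
  · have h1 : (l.take k).length = k := by simp; omega
    conv_rhs => rw [← List.take_append_drop k l, lsb_append, h1]
    rw [Nat.add_mul_mod_self_left, Nat.mod_eq_of_lt]
    simpa [h1] using lsb_lt (l.take k)

theorem lsb_drop (k : ℕ) (l : List Bool) : lsb (l.drop k) = lsb l / 2 ^ k := by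
  by_cases h : l.length ≤ k
  · rw [List.drop_of_length_le h, Nat.div_eq_of_lt, lsb_nil]
    exact (lsb_lt l).trans_le (Nat.pow_le_pow_right (by norm_num) h)
  · have h1 : (l.take k).length = k := by simp; omega
    conv_rhs => rw [← List.take_append_drop k l, lsb_append, h1]
    rw [Nat.add_mul_div_left _ _ (by positivity), Nat.div_eq_of_lt, zero_add]
    simpa [h1] using lsb_lt (l.take k)

theorem lsb_reverse (l : List Bool) : lsb l.reverse = Arith.msb l := by
  induction l with
  | nil => rfl
  | cons b l ih =>
    rw [List.reverse_cons, lsb_append, ih, Arith.msb_cons, List.length_reverse, lsb_cons]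
    simp; ring





theorem bits_lsb_concat_true (l : List Bool) : (lsb (l ++ [true])).bits = l ++ [true] := by
  induction l with
  | nil => rfl
  | cons b l ih =>
    rw [List.cons_append, lsb_cons_bit, Nat.bits_append_bit, ih]
    intro h
    rw [h] at ih
    simp at ih

/-- remove trailing zeros -/
def stripZ (l : List Bool) : List Bool := (l.reverse.dropWhile (fun b => !b)).reverse

theorem stripZ_eq (l : List Bool) : stripZ l = (lsb l).bits := by
  induction l using List.reverseRecOn with
  | nil => rfl
  | append_singleton l b ih =>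
    cases b
    · rw [lsb_append]
      simpa [stripZ, lsb_cons] using ih
    · rw [bits_lsb_concat_true]
      simp [stripZ]

/-! ### transducers -/

/-- drop leading zeros -/
def dzδ (s : Bool) (a _b : Option Bool) : Bool × List Bool :=
  if s || a.getD false then (true, [a.getD false]) else (false, [])

theorem run2_dz_true (l : List Bool) : (run2 dzδ true l []).2 = l := by
  induction l with
  | nil => rw [run2_nil_nil]
  | cons a l ih => rw [run2_cons_nil]; simp [dzδ, ih]

theorem run2_dz (l : List Bool) : (run2 dzδ false l []).2 = l.dropWhile (fun b => !b) := by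
  induction l with
  | nil => rw [run2_nil_nil]; rfl
  | cons a l ih =>
    rw [run2_cons_nil]
    cases a
    · simp [dzδ, ih]
    · simp [dzδ, run2_dz_true]

/-- ripple-carry adder -/
def addδ (c : Bool) (a b : Option Bool) : Bool × List Bool :=
  (Arith.maj (a.getD false) (b.getD false) c, [Arith.xor3 (a.getD false) (b.getD false) c])

theorem run2_add (c : Bool) (x y : List Bool) :
    lsb ((run2 addδ c x y).2 ++ [(run2 addδ c x y).1]) = lsb x + lsb y + c.toNat := by
  fun_induction run2 addδ c x y with
  | case1 s => simp [lsb_cons]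
  | case2 s a x ih =>
    have := Arith.full_adder a false s
    simp only [addδ, Option.getD_some, Option.getD_none, List.cons_append, List.nil_append,
      lsb_cons, lsb_nil, Bool.toNat_false] at ih this ⊢
    omega
  | case3 s b y ih =>
    have := Arith.full_adder false b s
    simp only [addδ, Option.getD_some, Option.getD_none, List.cons_append, List.nil_append,
      lsb_cons, lsb_nil, Bool.toNat_false] at ih this ⊢
    omega
  | case4 s a x b y ih =>
    have := Arith.full_adder a b s
    simp only [addδ, Option.getD_some, List.cons_append, List.nil_append,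
      lsb_cons] at ih this ⊢
    omega

/-- ripple-borrow subtractor -/
def subδ (c : Bool) (a b : Option Bool) : Bool × List Bool :=
  (Arith.bor (a.getD false) (b.getD false) c, [Arith.xor3 (a.getD false) (b.getD false) c])

theorem run2_sub (c : Bool) (x y : List Bool) :
    (lsb (run2 subδ c x y).2 : ℤ) - 2 ^ (run2 subδ c x y).2.length * (run2 subδ c x y).1.toNat =
      lsb x - lsb y - c.toNat := by
  fun_induction run2 subδ c x y with
  | case1 s => simp
  | case2 s a x ih =>
    have := Arith.full_sub a false s
    simp only [subδ, Option.getD_some, Option.getD_none, List.cons_append, List.nil_append,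
      lsb_cons, lsb_nil, Bool.toNat_false, List.length_cons, pow_succ] at ih this ⊢
    push_cast at ih this ⊢
    linear_combination 2 * ih - this
  | case3 s b y ih =>
    have := Arith.full_sub false b s
    simp only [subδ, Option.getD_some, Option.getD_none, List.cons_append, List.nil_append,
      lsb_cons, lsb_nil, Bool.toNat_false, List.length_cons, pow_succ] at ih this ⊢
    push_cast at ih this ⊢
    linear_combination 2 * ih - this
  | case4 s a x b y ih =>
    have := Arith.full_sub a b s
    simp only [subδ, Option.getD_some, List.cons_append, List.nil_append,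
      lsb_cons, List.length_cons, pow_succ] at ih this ⊢
    push_cast at ih this ⊢
    linear_combination 2 * ih - this

theorem run2_sub_fst (x y : List Bool) : (run2 subδ false x y).1 = decide (lsb x < lsb y) := by
  have h := run2_sub false x y
  have h1 := lsb_lt (run2 subδ false x y).2
  have h2 : ((lsb (run2 subδ false x y).2 : ℕ) : ℤ) < 2 ^ (run2 subδ false x y).2.length := by
    exact_mod_cast h1
  cases hc : (run2 subδ false x y).1
  · rw [hc] at h
    simp only [Bool.toNat_false, Nat.cast_zero, mul_zero, sub_zero] at h
    symm; simp only [decide_eq_false_iff_not]; omega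
  · rw [hc] at h
    simp only [Bool.toNat_false, Bool.toNat_true, Nat.cast_zero, Nat.cast_one, mul_one,
      sub_zero] at h
    symm; simp only [decide_eq_true_eq]; omega

theorem run2_sub_snd (x y : List Bool) (h : lsb y ≤ lsb x) :
    lsb (run2 subδ false x y).2 = lsb x - lsb y := by
  have h0 := run2_sub false x y
  rw [run2_sub_fst, decide_eq_false (by omega)] at h0
  simp only [Bool.toNat_false, Nat.cast_zero, mul_zero, sub_zero] at h0
  omega

/-- bitwise operation -/
def bwδ (g : Bool → Bool → Bool) (_s : Unit) (a b : Option Bool) : Unit × List Bool :=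
  ((), [g (a.getD false) (b.getD false)])

theorem run2_bw (g : Bool → Bool → Bool) (hg : g false false = false) (x y : List Bool) :
    lsb (run2 (bwδ g) () x y).2 = Nat.bitwise g (lsb x) (lsb y) := by
  have key : ∀ s : Unit, lsb (run2 (bwδ g) s x y).2 = Nat.bitwise g (lsb x) (lsb y) := by
    intro s
    fun_induction run2 (bwδ g) s x y with
    | case1 s => simp
    | case2 s a x ih =>
      simp only [bwδ, Option.getD_some, Option.getD_none, List.cons_append, List.nil_append,
        lsb_cons_bit, lsb_nil] at ih ⊢
      rw [ih, ← Nat.bitwise_bit hg]; rfl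
    | case3 s b y ih =>
      simp only [bwδ, Option.getD_some, Option.getD_none, List.cons_append, List.nil_append,
        lsb_cons_bit, lsb_nil] at ih ⊢
      rw [ih, ← Nat.bitwise_bit hg]; rfl
    | case4 s a x b y ih =>
      simp only [bwδ, Option.getD_some, List.cons_append, List.nil_append,
        lsb_cons_bit] at ih ⊢
      rw [ih, ← Nat.bitwise_bit hg]
  exact key ()

/-- the first `k` bits, padded with zeros -/
def padδ (_s : Unit) (a b : Option Bool) : Unit × List Bool :=
  ((), if b.isSome then [a.getD false] else [])

theorem run2_pad (x : List Bool) (k : ℕ) :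
    (run2 padδ () x (List.replicate k true)).2 = x.takeD k false := by
  induction k generalizing x with
  | zero =>
    induction x with
    | nil => simp [run2_nil_nil]
    | cons a x ih => simpa [run2_cons_nil, padδ] using ih
  | succ k ih =>
    cases x with
    | nil => rw [List.replicate_succ, run2_nil_cons]; simp [padδ, ih]
    | cons a x => rw [List.replicate_succ, run2_cons_cons]; simp [padδ, ih]

/-- drop the first `k` bits -/
def dropδ (_s : Unit) (a b : Option Bool) : Unit × List Bool :=
  ((), if b.isSome then [] else [a.getD false])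

theorem run2_drop (x : List Bool) (k : ℕ) :
    (run2 dropδ () x (List.replicate k true)).2 = x.drop k := by
  induction k generalizing x with
  | zero =>
    induction x with
    | nil => simp [run2_nil_nil]
    | cons a x ih => simpa [run2_cons_nil, dropδ] using ih
  | succ k ih =>
    cases x with
    | nil => rw [List.replicate_succ, run2_nil_cons]; simpa [dropδ] using ih []
    | cons a x => rw [List.replicate_succ, run2_cons_cons]; simp [dropδ, ih]

/-- decode a coded list of bits: keep the middle one of each three symbols -/
def midδ (s : Fin 3) (a _b : Option Bool) : Fin 3 × List Bool :=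
  (s + 1, if s = 1 then [a.getD false] else [])

theorem run2_mid (l : List Bool) :
    (run2 midδ 0 (l.flatMap (fun b => [true, b, false])) []).2 = l := by
  induction l with
  | nil => simp [run2_nil_nil]
  | cons a l ih =>
    have e : (a :: l).flatMap (fun b => [true, b, false]) =
        true :: a :: false :: l.flatMap (fun b => [true, b, false]) := by simp
    rw [e, run2_cons_nil, run2_cons_nil, run2_cons_nil]
    have e3 : (midδ (midδ (midδ 0 (some true) none).1 (some a) none).1 (some false) none).1 = 0 := by
      simp [midδ]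
    rw [e3, ih]
    simp [midδ]

/-- equality of bit strings -/
def eqδ (s : Bool) (a b : Option Bool) : Bool × List Bool := (s && decide (a = b), [])

theorem run2_eq (s : Bool) (x y : List Bool) : (run2 eqδ s x y).1 = (s && decide (x = y)) := by
  fun_induction run2 eqδ s x y with
  | case1 s => simp
  | case2 s a x ih => rw [ih]; simp [eqδ]
  | case3 s b y ih => rw [ih]; simp [eqδ]
  | case4 s a x b y ih => rw [ih]; simp [eqδ, Bool.and_assoc]

/-! ### fixed-width fields -/

/-- the `k` low bits of `n`, least significant first -/
def bitsW (k n : ℕ) : List Bool := n.bits.takeD k false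

@[simp] theorem length_bitsW (k n : ℕ) : (bitsW k n).length = k := by simp [bitsW]

theorem lsb_takeD (k : ℕ) (l : List Bool) : lsb (l.takeD k false) = lsb l % 2 ^ k := by
  induction k generalizing l with
  | zero => simp [Nat.mod_one]
  | succ k ih =>
    cases l with
    | nil => simp [lsb_cons]
    | cons b l => rw [← lsb_take, List.takeD_succ, List.take_succ_cons, lsb_cons, lsb_cons, ih,
        lsb_take]; rfl

theorem lsb_bitsW (k n : ℕ) : lsb (bitsW k n) = n % 2 ^ k := by
  rw [bitsW, lsb_takeD, lsb_bits]




end Crest.Agent.X326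
end

-- ▼ part X326/TC/NatLin

/-!
# Linear-time arithmetic on binary natural numbers

All statements have the `fun_prop` form `TC P T f → TC P T g → TC P T (fun x => f x + g x)`.
Shift amounts and field widths are unary (`TU`).
-/

set_option autoImplicit false
set_option linter.dupNamespace false

namespace Crest.Agent.X326

open Crest.Agent.Lib.PT Function Fst

variable {α β γ τ : Type} [PTCode α] [PTCode β] [PTCode γ] [PTCode τ] {P : α → Prop} {T : α → ℕ}

/-! ### transducers -/

theorem Lin.run2 {σ : Type} [Finite σ] (δ : σ → Option Bool → Option Bool → σ × List Bool)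
    (s₀ : σ) (tag : σ → τ) :
    Lin (fun p : Bits × Bits =>
      (tag (run2 δ s₀ p.1.val p.2.val).1, Bits.mk (run2 δ s₀ p.1.val p.2.val).2)) := by
  obtain ⟨c, C, h⟩ := exists_run2 δ s₀ (fun s => enc (tag s))
  exact ⟨c, C, fun p _ => by simpa [Lib.PT.sz] using h p.1.val p.2.val⟩

/-- a finite-state transducer reading the codes of two computed values in parallel -/
theorem TC.run2 {σ : Type} [Finite σ] (δ : σ → Option Bool → Option Bool → σ × List Bool)
    (s₀ : σ) (tag : σ → τ) {f : α → β} {g : α → γ} (hf : TC P T f) (hg : TC P T g) :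
    TC P T (fun x => (tag (run2 δ s₀ (enc (f x)) (enc (g x))).1,
      Bits.mk (run2 δ s₀ (enc (f x)) (enc (g x))).2)) :=
  TC.comp_lin (f := fun x => (Lib.PT.toBits (f x), Lib.PT.toBits (g x))) (Lin.run2 δ s₀ tag)
    (hf.toBits.prodMk hg.toBits)

/-- output of a two-stream transducer -/
theorem TC.run2_out {σ : Type} [Finite σ] (δ : σ → Option Bool → Option Bool → σ × List Bool)
    (s₀ : σ) {f : α → β} {g : α → γ} (hf : TC P T f) (hg : TC P T g) :
    TC P T (fun x => Bits.mk (Fst.run2 δ s₀ (enc (f x)) (enc (g x))).2) :=
  (TC.run2 δ s₀ (fun _ => ()) hf hg).snd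

/-- final state of a two-stream transducer -/
theorem TC.run2_state {σ : Type} [Finite σ] (δ : σ → Option Bool → Option Bool → σ × List Bool)
    (s₀ : σ) (tag : σ → τ) {f : α → β} {g : α → γ} (hf : TC P T f) (hg : TC P T g) :
    TC P T (fun x => tag (Fst.run2 δ s₀ (enc (f x)) (enc (g x))).1) :=
  (TC.run2 δ s₀ tag hf hg).fst

/-- output of a one-stream transducer -/
theorem TC.run1_out {σ : Type} [Finite σ] (δ : σ → Option Bool → Option Bool → σ × List Bool)
    (s₀ : σ) {f : α → β} (hf : TC P T f) :
    TC P T (fun x => Bits.mk (Fst.run2 δ s₀ (enc (f x)) []).2) :=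
  TC.run2_out δ s₀ hf (TC.const ())

/-! ### raw bit strings -/

@[fun_prop]
theorem TC.bitsAppend {f g : α → Bits} (hf : TC P T f) (hg : TC P T g) :
    TC P T (fun x => Bits.mk ((f x).val ++ (g x).val)) :=
  TC.raw LinRaw.append (hf.prodMk hg) (fun x _ => by simp)

@[fun_prop]
theorem TC.bitsReverse {f : α → Bits} (hf : TC P T f) :
    TC P T (fun x => Bits.mk (f x).val.reverse) :=
  TC.raw LinRaw.reverse hf (fun _ _ => rfl)

theorem enc_listBool (l : List Bool) : enc l = l.flatMap (fun b => [true, b, false]) := by
  induction l with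
  | nil => rfl
  | cons b l ih => simp [ih, pair]

/-- a raw bit string as a coded list of bits -/
@[fun_prop]
theorem TC.bitsVal {f : α → Bits} (hf : TC P T f) : TC P T (fun x => (f x).val) :=
  TC.raw (LinRaw.flatMap (fun b => [true, b, false])) hf (fun x _ => by
    rw [enc_listBool]; rfl)

/-- a coded list of bits as a raw bit string -/
@[fun_prop]
theorem TC.bitsMk {f : α → List Bool} (hf : TC P T f) : TC P T (fun x => Bits.mk (f x)) :=
  (TC.run1_out midδ 0 hf).of_eq (fun x => by rw [enc_listBool, run2_mid])

/-- the code of a value as a coded list of bits -/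
theorem TC.encode {f : α → β} (hf : TC P T f) : TC P T (fun x => enc (f x)) :=
  hf.toBits.bitsVal

/-- value of a raw bit string (least significant bit first) -/
theorem TC.lsbBits {f : α → Bits} (hf : TC P T f) : TC P T (fun x => lsb (f x).val) :=
  (TC.run1_out dzδ false hf.bitsReverse).bitsReverse.recode (fun x _ => by
    simp only [enc_bits, run2_dz, enc_nat]
    exact stripZ_eq _)

/-- value of a list of bits (least significant bit first) -/
@[fun_prop]
theorem TC.lsb {f : α → List Bool} (hf : TC P T f) : TC P T (fun x => lsb (f x)) :=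
  hf.bitsMk.lsbBits

/-- value of a list of bits (most significant bit first) -/
@[fun_prop]
theorem TC.msb {f : α → List Bool} (hf : TC P T f) : TC P T (fun x => Arith.msb (f x)) :=
  hf.bitsMk.bitsReverse.lsbBits.of_eq (fun _ => lsb_reverse _)

/-- the bits of a number as a raw string -/
theorem TC.natBitsRaw {f : α → ℕ} (hf : TC P T f) : TC P T (fun x => Bits.mk (f x).bits) :=
  hf.toBits

/-- the bits of a number as a coded list -/
@[fun_prop]
theorem TC.natBits {f : α → ℕ} (hf : TC P T f) : TC P T (fun x => (f x).bits) :=
  hf.encode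

/-- equality test on any coded type -/
theorem TC.decideEq [DecidableEq β] {f g : α → β} (hf : TC P T f) (hg : TC P T g) :
    TC P T (fun x => decide (f x = g x)) :=
  (TC.run2_state eqδ true (fun s => s) hf hg).of_eq (fun x => by simp [run2_eq])

@[fun_prop]
theorem TP.eq {f g : α → β} (hf : TC P T f) (hg : TC P T g) : TP P T (fun x => f x = g x) := by
  classical
  exact TP.of_tc (hf.decideEq hg)

@[fun_prop]
theorem TP.ne {f g : α → β} (hf : TC P T f) (hg : TC P T g) : TP P T (fun x => f x ≠ g x) :=
  (TP.eq hf hg).not

@[fun_prop]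
theorem TC.beq [BEq β] [LawfulBEq β] {f g : α → β} (hf : TC P T f) (hg : TC P T g) :
    TC P T (fun x => f x == g x) := by
  classical
  exact (hf.decideEq hg).of_eq (fun x => by by_cases h : f x = g x <;> simp [h])

/-! ### addition, subtraction, comparison -/

section nat

variable {f g : α → ℕ}

@[fun_prop]
theorem TC.natAdd (hf : TC P T f) (hg : TC P T g) : TC P T (fun x => f x + g x) := by
  have h := TC.run2 addδ false (fun s => Bits.mk [s]) hf hg
  refine (h.snd.bitsAppend h.fst).lsbBits.of_eq (fun x => ?_)
  simp [run2_add, enc_nat]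

theorem TC.natDecideLt (hf : TC P T f) (hg : TC P T g) : TC P T (fun x => decide (f x < g x)) :=
  (TC.run2_state subδ false (fun s => s) hf hg).of_eq (fun x => by
    simp [run2_sub_fst, enc_nat])

theorem TC.natDecideLe (hf : TC P T f) (hg : TC P T g) : TC P T (fun x => decide (f x ≤ g x)) :=
  (hg.natDecideLt hf).not.of_eq (fun x => by by_cases h : f x ≤ g x <;> simp [h]; omega)

@[fun_prop]
theorem TP.natLt (hf : TC P T f) (hg : TC P T g) : TP P T (fun x => f x < g x) :=
  TP.of_tc (hf.natDecideLt hg)

@[fun_prop]
theorem TP.natLe (hf : TC P T f) (hg : TC P T g) : TP P T (fun x => f x ≤ g x) :=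
  TP.of_tc (hf.natDecideLe hg)

@[fun_prop]
theorem TP.natGt (hf : TC P T f) (hg : TC P T g) : TP P T (fun x => f x > g x) :=
  TP.natLt hg hf

@[fun_prop]
theorem TP.natGe (hf : TC P T f) (hg : TC P T g) : TP P T (fun x => f x ≥ g x) :=
  TP.natLe hg hf

@[fun_prop]
theorem TC.natSub (hf : TC P T f) (hg : TC P T g) : TC P T (fun x => f x - g x) := by
  have h := (TC.run2_out subδ false hf hg).lsbBits
  refine (TC.ite (TP.natLt hf hg) (TC.const 0) h).of_eq (fun x => ?_)
  split_ifs with hlt
  · omega
  · rw [run2_sub_snd] <;> simp [enc_nat]; omega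

@[fun_prop]
theorem TC.natSucc (hf : TC P T f) : TC P T (fun x => (f x).succ) := hf.natAdd (TC.const 1)

@[fun_prop]
theorem TC.natPred (hf : TC P T f) : TC P T (fun x => (f x).pred) := hf.natSub (TC.const 1)

@[fun_prop]
theorem TC.natMax (hf : TC P T f) (hg : TC P T g) : TC P T (fun x => max (f x) (g x)) :=
  (TC.ite (TP.natLe hf hg) hg hf).of_eq (fun _ => (max_def _ _).symm)

@[fun_prop]
theorem TC.natMin (hf : TC P T f) (hg : TC P T g) : TC P T (fun x => min (f x) (g x)) :=
  (TC.ite (TP.natLe hf hg) hf hg).of_eq (fun _ => (min_def _ _).symm)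

/-- multiplication by a fixed constant -/
@[fun_prop]
theorem TC.natConstMul (c : ℕ) (hf : TC P T f) : TC P T (fun x => c * f x) := by
  induction c using Nat.binaryRec' with
  | zero => exact (TC.const 0).of_eq (fun x => by simp)
  | bit b c _ ih =>
    cases b
    · exact (ih.natAdd ih).of_eq (fun x => by rw [Nat.bit_val]; simp; ring)
    · exact ((ih.natAdd ih).natAdd hf).of_eq (fun x => by rw [Nat.bit_val]; simp; ring)

@[fun_prop]
theorem TC.natMulConst (c : ℕ) (hf : TC P T f) : TC P T (fun x => f x * c) :=
  (hf.natConstMul c).of_eq (fun x => by ring)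

/-! ### bitwise operations -/

theorem TC.natBitwise (op : Bool → Bool → Bool) (hop : op false false = false) (hf : TC P T f)
    (hg : TC P T g) : TC P T (fun x => Nat.bitwise op (f x) (g x)) :=
  (TC.run2_out (bwδ op) () hf hg).lsbBits.of_eq (fun x => by simp [run2_bw op hop, enc_nat])

@[fun_prop]
theorem TC.natXor (hf : TC P T f) (hg : TC P T g) : TC P T (fun x => f x ^^^ g x) :=
  TC.natBitwise bne rfl hf hg

@[fun_prop]
theorem TC.natLand (hf : TC P T f) (hg : TC P T g) : TC P T (fun x => f x &&& g x) :=
  TC.natBitwise Bool.and rfl hf hg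

@[fun_prop]
theorem TC.natLor (hf : TC P T f) (hg : TC P T g) : TC P T (fun x => f x ||| g x) :=
  TC.natBitwise Bool.or rfl hf hg

/-! ### shifts and fields -/

variable {k : α → ℕ}

/-- the `k` low bits as a raw string of length exactly `k` -/
theorem TC.bitsWRaw (hk : TU P T k) (hf : TC P T f) :
    TC P T (fun x => Bits.mk (bitsW (k x) (f x))) :=
  (TC.run2_out padδ () hf hk).of_eq (fun x => by simp [run2_pad, enc_nat, bitsW])

/-- the `k` low bits as a list of length exactly `k` -/
@[fun_prop]
theorem TC.bitsW (hk : TU P T k) (hf : TC P T f) : TC P T (fun x => bitsW (k x) (f x)) :=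
  (TC.bitsWRaw hk hf).bitsVal

@[fun_prop]
theorem TC.natModTwoPow (hf : TC P T f) (hk : TU P T k) : TC P T (fun x => f x % 2 ^ k x) :=
  (TC.bitsWRaw hk hf).lsbBits.of_eq (fun _ => lsb_bitsW _ _)

@[fun_prop]
theorem TC.natDivTwoPow (hf : TC P T f) (hk : TU P T k) : TC P T (fun x => f x / 2 ^ k x) :=
  (TC.run2_out dropδ () hf hk).lsbBits.of_eq (fun x => by simp [run2_drop, enc_nat, lsb_drop])

@[fun_prop]
theorem TC.natShiftRight (hf : TC P T f) (hk : TU P T k) : TC P T (fun x => f x >>> k x) :=
  (hf.natDivTwoPow hk).of_eq (fun _ => (Nat.shiftRight_eq_div_pow _ _).symm)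

theorem TC.zerosRaw (hk : TU P T k) : TC P T (fun x => Bits.mk (List.replicate (k x) false)) :=
  TC.raw (LinRaw.flatMap (fun _ => [false])) hk (fun x _ => by
    simp only [enc_un, enc_bits]
    induction k x with
    | zero => rfl
    | succ n ih => simp [List.replicate_succ, ih])

@[fun_prop]
theorem TC.natMulTwoPow (hf : TC P T f) (hk : TU P T k) : TC P T (fun x => f x * 2 ^ k x) :=
  ((TC.zerosRaw hk).bitsAppend hf.natBitsRaw).lsbBits.of_eq (fun x => by
    simp [lsb_append, mul_comm])

@[fun_prop]
theorem TC.natTwoPowMul (hk : TU P T k) (hf : TC P T f) : TC P T (fun x => 2 ^ k x * f x) :=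
  (hf.natMulTwoPow hk).of_eq (fun _ => mul_comm _ _)

@[fun_prop]
theorem TC.natShiftLeft (hf : TC P T f) (hk : TU P T k) : TC P T (fun x => f x <<< k x) :=
  (hf.natMulTwoPow hk).of_eq (fun _ => (Nat.shiftLeft_eq _ _).symm)

theorem TC.natTwoPow (hk : TU P T k) : TC P T (fun x => 2 ^ k x) :=
  ((TC.const 1).natMulTwoPow hk).of_eq (fun _ => one_mul _)

@[fun_prop]
theorem TC.natDiv2 (hf : TC P T f) : TC P T (fun x => (f x).div2) :=
  (hf.natDivTwoPow (TU.const 1)).of_eq (fun x => by simp [Nat.div2_val])

theorem TC.natDivTwo (hf : TC P T f) : TC P T (fun x => f x / 2) :=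
  (hf.natDivTwoPow (TU.const 1)).of_eq (fun x => by simp)

theorem TC.natModTwo (hf : TC P T f) : TC P T (fun x => f x % 2) :=
  (hf.natModTwoPow (TU.const 1)).of_eq (fun x => by simp)

@[fun_prop]
theorem TC.natTestBit (hf : TC P T f) (hk : TU P T k) : TC P T (fun x => (f x).testBit (k x)) :=
  ((hf.natDivTwoPow hk).natModTwo.decideEq (TC.const 1)).of_eq (fun x => by
    rw [Nat.testBit_eq_decide_div_mod_eq])

@[fun_prop]
theorem TC.natBodd (hf : TC P T f) : TC P T (fun x => (f x).bodd) :=
  (hf.natTestBit (TU.const 0)).of_eq (fun x => by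
    rw [Nat.testBit_zero, Nat.mod_two_of_bodd]; cases (f x).bodd <;> simp)

@[fun_prop]
theorem TC.boolToNat {b : α → Bool} (hb : TC P T b) : TC P T (fun x => (b x).toNat) :=
  (TC.cond hb (TC.const 1) (TC.const 0)).of_eq (fun x => by cases b x <;> rfl)

@[fun_prop]
theorem TC.natBit {b : α → Bool} (hb : TC P T b) (hf : TC P T f) :
    TC P T (fun x => Nat.bit (b x) (f x)) :=
  ((hf.natAdd hf).natAdd hb.boolToNat).of_eq (fun x => by rw [Nat.bit_val]; ring)

@[fun_prop]
theorem TP.natEven (hf : TC P T f) : TP P T (fun x => Even (f x)) :=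
  (TP.eq hf.natModTwo (TC.const 0)).congr (fun _ _ => Nat.even_iff.symm)

@[fun_prop]
theorem TP.natOdd (hf : TC P T f) : TP P T (fun x => Odd (f x)) :=
  (TP.eq hf.natModTwo (TC.const 1)).congr (fun _ _ => Nat.odd_iff.symm)

/-! ### arithmetic modulo a number `M` given in binary -/

variable {M : α → ℕ}




end nat

/-! ### the same as `Lin` statements on pairs -/

theorem Lin.natAdd : Lin (fun p : ℕ × ℕ => p.1 + p.2) := by fun_prop
theorem Lin.natSub : Lin (fun p : ℕ × ℕ => p.1 - p.2) := by fun_prop

/-! ### sizes -/


theorem sz_le_of_lt_two_pow {a k : ℕ} (h : a < 2 ^ k) : sz a ≤ k := by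
  rw [sz_nat]; exact Nat.size_le.2 h


theorem sz_nat_mono {a b : ℕ} (h : a ≤ b) : sz a ≤ sz b := by
  simp only [sz_nat]; exact Nat.size_le_size h

end Crest.Agent.X326
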