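import Crest.Agent.X326.TC.Core

/-!
# Fine-grained time calculus: case distinctions, predicates, finite tables, poly-time steps
-/

set_option autoImplicit false
set_option linter.dupNamespace false

namespace Crest.Agent.X326

open Crest.Agent.Lib.PT Function

variable {α β γ δ ε : Type} [PTCode α] [PTCode β] [PTCode γ] [PTCode δ] [PTCode ε]
  {P P' : α → Prop} {T T' : α → ℕ}

/-! ### Booleans and predicates -/

@[fun_prop]
theorem TC.not {f : α → Bool} (hf : TC P T f) : TC P T (fun x => !f x) :=
  (TC.cond hf (TC.const false) (TC.const true)).of_eq (fun x => by cases f x <;> rfl)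

@[fun_prop]
theorem TC.and {f g : α → Bool} (hf : TC P T f) (hg : TC P T g) : TC P T (fun x => f x && g x) :=
  (TC.cond hf hg (TC.const false)).of_eq (fun x => by cases f x <;> rfl)

@[fun_prop]
theorem TC.or {f g : α → Bool} (hf : TC P T f) (hg : TC P T g) : TC P T (fun x => f x || g x) :=
  (TC.cond hf (TC.const true) hg).of_eq (fun x => by cases f x <;> rfl)

@[fun_prop]
theorem TC.xor {f g : α → Bool} (hf : TC P T f) (hg : TC P T g) :
    TC P T (fun x => Bool.xor (f x) (g x)) :=
  (TC.cond hf hg.not hg).of_eq (fun x => by cases f x <;> simp)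

/-- predicates decided within the budget -/
@[fun_prop]
def TP (P : Dom α) (T : Cost α) (p : α → Prop) : Prop :=
  ∃ f : α → Bool, TC P T f ∧ ∀ x, P x → (p x ↔ f x = true)

@[fun_prop]
theorem TP.decide {p : α → Prop} [DecidablePred p] (hp : TP P T p) :
    TC P T (fun x => decide (p x)) := by
  obtain ⟨f, hf, h⟩ := hp
  exact hf.congr (fun x hx => by simp [h x hx])

theorem TP.of_tc {p : α → Prop} [DecidablePred p] (hp : TC P T (fun x => Decidable.decide (p x))) :
    TP P T p := ⟨_, hp, fun x _ => by simp⟩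

@[fun_prop]
theorem TC.eq_true {f : α → Bool} (hf : TC P T f) : TP P T (fun x => f x = true) :=
  ⟨f, hf, fun _ _ => Iff.rfl⟩

theorem TP.congr {p q : α → Prop} (hp : TP P T p) (h : ∀ x, P x → (p x ↔ q x)) : TP P T q := by
  obtain ⟨f, hf, h'⟩ := hp
  exact ⟨f, hf, fun x hx => (h x hx).symm.trans (h' x hx)⟩

theorem TP.mono {p : α → Prop} (hp : TP P T p) (hP : ∀ x, P' x → P x) (hT : Bud P' T' T) :
    TP P' T' p := by
  obtain ⟨f, hf, h'⟩ := hp
  exact ⟨f, hf.mono hP hT, fun x hx => h' x (hP x hx)⟩

@[fun_prop]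
theorem TC.ite {p : α → Prop} [DecidablePred p] {f g : α → β} (hc : TP P T p)
    (hf : TC P T f) (hg : TC P T g) : TC P T (fun x => if p x then f x else g x) :=
  TC.ite' hc.decide (hf.restrict (fun _ h => h.1)) (hg.restrict (fun _ h => h.1))

@[fun_prop]
theorem TP.not {p : α → Prop} (hp : TP P T p) : TP P T (fun x => ¬ p x) := by
  obtain ⟨f, hf, h⟩ := hp
  exact ⟨_, hf.not, fun x hx => by simp [h x hx]⟩

@[fun_prop]
theorem TP.and {p q : α → Prop} (hp : TP P T p) (hq : TP P T q) : TP P T (fun x => p x ∧ q x) := by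
  obtain ⟨f, hf, h⟩ := hp
  obtain ⟨g, hg, h'⟩ := hq
  exact ⟨_, hf.and hg, fun x hx => by simp [h x hx, h' x hx]⟩

@[fun_prop]
theorem TP.or {p q : α → Prop} (hp : TP P T p) (hq : TP P T q) : TP P T (fun x => p x ∨ q x) := by
  obtain ⟨f, hf, h⟩ := hp
  obtain ⟨g, hg, h'⟩ := hq
  exact ⟨_, hf.or hg, fun x hx => by simp [h x hx, h' x hx]⟩

@[fun_prop]
theorem TP.imp {p q : α → Prop} (hp : TP P T p) (hq : TP P T q) : TP P T (fun x => p x → q x) :=
  (hp.not.or hq).congr (fun x _ => by tauto)

@[fun_prop]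
theorem TP.iff {p q : α → Prop} (hp : TP P T p) (hq : TP P T q) : TP P T (fun x => p x ↔ q x) :=
  ((hp.imp hq).and (hq.imp hp)).congr (fun x _ => by tauto)

@[fun_prop]
theorem TP.comp_lin {p : β → Prop} {f : α → β} (hp : TP (fun _ => True) (fun _ => 0) p)
    (hf : TC P T f) : TP P T (fun x => p (f x)) := by
  obtain ⟨g, hg, h⟩ := hp
  exact ⟨_, TC.comp_lin hg hf, fun x _ => h _ trivial⟩

@[fun_prop]
theorem TP.const (p : Prop) : TP P T (fun _ : α => p) := by
  classical
  exact ⟨_, TC.const (Decidable.decide p), fun x _ => by simp⟩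

/-! ### sums and options -/

@[fun_prop]
theorem TC.inl {f : α → β} (hf : TC P T f) : TC P T (fun x => (Sum.inl (f x) : β ⊕ γ)) :=
  TC.raw (LinRaw.cons false) hf (fun _ _ => rfl)

@[fun_prop]
theorem TC.inr {f : α → γ} (hf : TC P T f) : TC P T (fun x => (Sum.inr (f x) : β ⊕ γ)) :=
  TC.raw (LinRaw.cons true) hf (fun _ _ => rfl)

@[fun_prop]
theorem TC.some {f : α → β} (hf : TC P T f) : TC P T (fun x => some (f x)) :=
  TC.raw (LinRaw.cons true) hf (fun _ _ => rfl)

/-- continue with a value whose code was computed as a raw string -/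
theorem TC.of_code {Q : α → β → Prop} {r : α → Bits} {g : α → β → γ} {h : α → γ}
    (hr : TC P T r)
    (hg : TC (fun p : α × β => P p.1 ∧ Q p.1 p.2) (fun p => T p.1) (fun p => g p.1 p.2))
    (H : ∀ x, P x → ∃ b, Q x b ∧ (r x).val = enc b ∧ h x = g x b) : TC P T h := by
  have h1 := (TC.id.prodMk hr)
  have h2 := h1.sz
  obtain ⟨c, n, hn, hc⟩ := h1.exists_run
  obtain ⟨d, D, hd⟩ := hg
  refine TC.of_run (.seq c d) (n := fun x => n x + D * (T x + Lib.PT.sz (x, r x) + 1))
    (hn.add (((Bud.self.add h2).add (Bud.const 1)).const_mul D)) (fun x hx => ?_)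
  obtain ⟨b, hb, e1, e2⟩ := H x hx
  have e3 : enc (x, r x) = enc (x, b) := by simp [e1]
  have e4 : Lib.PT.sz (x, r x) = Lib.PT.sz (x, b) := by simp only [Lib.PT.sz, e3]
  rw [e2, e4]
  exact (e3 ▸ hc x hx).seq (hd (x, b) ⟨hx, hb⟩)

theorem TC.rawTail {f : α → β} (hf : TC P T f) :
    TC P T (fun x => Bits.mk (enc (f x)).tail) := TC.raw LinRaw.tail hf (fun _ _ => rfl)

/-- case distinction on a sum; the branches know the shape -/
theorem TC.sumCases' {s : α → β ⊕ γ} {f : α → β → δ} {g : α → γ → δ} (hs : TC P T s)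
    (hf : TC (fun p : α × β => P p.1 ∧ s p.1 = Sum.inl p.2) (fun p => T p.1) (fun p => f p.1 p.2))
    (hg : TC (fun p : α × γ => P p.1 ∧ s p.1 = Sum.inr p.2) (fun p => T p.1)
      (fun p => g p.1 p.2)) :
    TC P T (fun x => Sum.elim (f x) (g x) (s x)) := by
  have h1 : TC (fun x => P x ∧ (enc (s x)).head? = Option.some true) T
      (fun x => Sum.elim (f x) (g x) (s x)) := by
    refine TC.of_code (Q := fun x c => s x = Sum.inr c) (hs.rawTail.restrict (fun _ h => h.1))
      (hg.restrict (fun p h => ⟨h.1.1, h.2⟩)) (fun x hx => ?_)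
    rcases h : s x with b | c
    · simp [h] at hx
    · exact ⟨c, rfl, by simp, rfl⟩
  have h2 : TC (fun x => P x ∧ (enc (s x)).head? ≠ Option.some true) T
      (fun x => Sum.elim (f x) (g x) (s x)) := by
    refine TC.of_code (Q := fun x b => s x = Sum.inl b) (hs.rawTail.restrict (fun _ h => h.1))
      (hf.restrict (fun p h => ⟨h.1.1, h.2⟩)) (fun x hx => ?_)
    rcases h : s x with b | c
    · exact ⟨b, rfl, by simp, rfl⟩
    · simp [h] at hx
  exact (TC.iteRaw hs h1 h2).of_eq (fun x => by simp)


/-- a function on a sum type from its two halves -/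
theorem TC.sumElim {Q : β ⊕ γ → Prop} {S : β ⊕ γ → ℕ} {f : β → δ} {g : γ → δ}
    (hf : TC (fun b => Q (Sum.inl b)) (fun b => S (Sum.inl b)) f)
    (hg : TC (fun c => Q (Sum.inr c)) (fun c => S (Sum.inr c)) g) : TC Q S (Sum.elim f g) := by
  have h1 : TC (fun p : (β ⊕ γ) × β => Q p.1 ∧ p.1 = Sum.inl p.2) (fun p => S p.1)
      (fun p => f p.2) :=
    hf.comp TC.id.snd (fun p h => h.2 ▸ h.1) (Bud.self.mono (fun p h => by rw [h.2]))
  have h2 : TC (fun p : (β ⊕ γ) × γ => Q p.1 ∧ p.1 = Sum.inr p.2) (fun p => S p.1)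
      (fun p => g p.2) :=
    hg.comp TC.id.snd (fun p h => h.2 ▸ h.1) (Bud.self.mono (fun p h => by rw [h.2]))
  exact TC.sumCases' (f := fun _ b => f b) (g := fun _ c => g c) TC.id h1 h2

/-- case distinction on an option; the branches know the shape -/
theorem TC.optionCases' {s : α → Option β} {f : α → δ} {g : α → β → δ} (hs : TC P T s)
    (hf : TC (fun x => P x ∧ s x = none) T f)
    (hg : TC (fun p : α × β => P p.1 ∧ s p.1 = Option.some p.2) (fun p => T p.1)
      (fun p => g p.1 p.2)) :
    TC P T (fun x => (s x).elim (f x) (g x)) := by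
  have h1 : TC (fun x => P x ∧ (enc (s x)).head? = Option.some true) T
      (fun x => (s x).elim (f x) (g x)) := by
    refine TC.of_code (Q := fun x c => s x = Option.some c) (hs.rawTail.restrict (fun _ h => h.1))
      (hg.restrict (fun p h => ⟨h.1.1, h.2⟩)) (fun x hx => ?_)
    rcases h : s x with _ | c
    · simp [h] at hx
    · exact ⟨c, rfl, by simp, rfl⟩
  have h2 : TC (fun x => P x ∧ (enc (s x)).head? ≠ Option.some true) T
      (fun x => (s x).elim (f x) (g x)) := by
    refine (hf.restrict (fun x hx => ⟨hx.1, ?_⟩)).congr (fun x hx => ?_)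
    · rcases h : s x with _ | c
      · rfl
      · simp [h] at hx
    · rcases h : s x with _ | c
      · rfl
      · simp [h] at hx
  exact (TC.iteRaw hs h1 h2).of_eq (fun x => by simp)

theorem TC.optionCases {s : α → Option β} {f : α → δ} {g : α → β → δ} (hs : TC P T s)
    (hf : TC P T f) (hg : TC (fun p : α × β => P p.1) (fun p => T p.1) (fun p => g p.1 p.2)) :
    TC P T (fun x => (s x).elim (f x) (g x)) :=
  TC.optionCases' hs (hf.restrict (fun _ h => h.1)) (hg.restrict (fun _ h => h.1))

@[fun_prop]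
theorem TC.optionGetD {s : α → Option β} {d : α → β} (hs : TC P T s) (hd : TC P T d) :
    TC P T (fun x => (s x).getD (d x)) :=
  (TC.optionCases (g := fun _ b => b) hs hd TC.id.snd).of_eq (fun x => by cases s x <;> rfl)

@[fun_prop]
theorem TC.isSome {s : α → Option β} (hs : TC P T s) : TC P T (fun x => (s x).isSome) :=
  (TC.optionCases (g := fun _ _ => true) hs (TC.const false) (TC.const true)).of_eq
    (fun x => by cases s x <;> rfl)

@[fun_prop]
theorem TC.isNone {s : α → Option β} (hs : TC P T s) : TC P T (fun x => (s x).isNone) :=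
  (TC.optionCases (g := fun _ _ => false) hs (TC.const true) (TC.const false)).of_eq
    (fun x => by cases s x <;> rfl)


/-! ### lists: constructors and case distinction -/

@[fun_prop]
theorem TC.listCons {f : α → β} {g : α → List β} (hf : TC P T f) (hg : TC P T g) :
    TC P T (fun x => f x :: g x) := (hf.prodMk hg).recode (fun _ _ => rfl)

theorem LinRaw.nonemptyTest : LinRaw nonemptyTest := by
  refine LinRaw.of_run (.ite 0 .skip (.seq (clear 0) (.push 0 true)) (.seq (clear 0) (.push 0 true)))
    2 3 (fun x => ?_)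
  have h : Run (.seq (clear 0) (.push 0 true)) (init x) (init [true]) (2 * x.length + 2) := by
    refine ((run_clear 0 (init x)).seq (run_push 0 true _)).of_eq ?_ (by simp)
    funext j
    rcases j with _ | j <;> simp [init]
  rcases x with _ | ⟨b, l⟩
  · exact (Run.ite_nil rfl (run_skip _)).of_eq (by simp [Lib.PT.nonemptyTest]) (by simp)
  · cases b
    · exact (Run.ite_false (l := l) rfl h).of_eq (by simp [Lib.PT.nonemptyTest]) (by omega)
    · exact (Run.ite_true (l := l) rfl h).of_eq (by simp [Lib.PT.nonemptyTest]) (by omega)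

/-- case distinction on a list; the branches know the shape -/
theorem TC.listCases' {s : α → List β} {f : α → δ} {g : α → β → List β → δ} (hs : TC P T s)
    (hf : TC (fun x => P x ∧ s x = []) T f)
    (hg : TC (fun p : α × β × List β => P p.1 ∧ s p.1 = p.2.1 :: p.2.2) (fun p => T p.1)
      (fun p => g p.1 p.2.1 p.2.2)) :
    TC P T (fun x => List.casesOn (motive := fun _ => δ) (s x) (f x) (g x)) := by
  have h0 : TC P T (fun x => Bits.mk (Lib.PT.nonemptyTest (enc (s x)))) :=
    TC.raw LinRaw.nonemptyTest hs (fun _ _ => rfl)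
  have h1 : TC (fun x => P x ∧ (enc (Bits.mk (Lib.PT.nonemptyTest (enc (s x))))).head? =
      Option.some true) T (fun x => List.casesOn (motive := fun _ => δ) (s x) (f x) (g x)) := by
    refine TC.of_code (Q := fun x (c : β × List β) => s x = c.1 :: c.2)
      (g := fun x c => g x c.1 c.2) (hs.toBits.restrict (fun _ h => h.1))
      (hg.restrict (fun p h => ⟨h.1.1, h.2⟩)) (fun x hx => ?_)
    rcases h : s x with _ | ⟨b, l⟩
    · simp [h, Lib.PT.nonemptyTest] at hx
    · exact ⟨(b, l), rfl, rfl, rfl⟩
  have h2 : TC (fun x => P x ∧ (enc (Bits.mk (Lib.PT.nonemptyTest (enc (s x))))).head? ≠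
      Option.some true) T (fun x => List.casesOn (motive := fun _ => δ) (s x) (f x) (g x)) := by
    have key : ∀ x, (enc (Bits.mk (Lib.PT.nonemptyTest (enc (s x))))).head? ≠ Option.some true →
        s x = [] := by
      intro x hx
      rcases h : s x with _ | ⟨b, l⟩
      · rfl
      · simp [h, Lib.PT.nonemptyTest, pair_ne_nil] at hx
    refine (hf.restrict (fun x hx => ⟨hx.1, key x hx.2⟩)).congr (fun x hx => ?_)
    rw [key x hx.2]
  exact (TC.iteRaw h0 h1 h2).of_eq (fun x => ite_self _)

theorem TC.listCases {s : α → List β} {f : α → δ} {g : α → β → List β → δ} (hs : TC P T s)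
    (hf : TC P T f)
    (hg : TC (fun p : α × β × List β => P p.1) (fun p => T p.1) (fun p => g p.1 p.2.1 p.2.2)) :
    TC P T (fun x => List.casesOn (motive := fun _ => δ) (s x) (f x) (g x)) :=
  TC.listCases' hs (hf.restrict (fun _ h => h.1)) (hg.restrict (fun _ h => h.1))

@[fun_prop]
theorem TC.head? {s : α → List β} (hs : TC P T s) : TC P T (fun x => (s x).head?) :=
  (TC.listCases (g := fun _ b _ => Option.some b) hs (TC.const none)
    TC.id.snd.fst.some).of_eq (fun x => by cases s x <;> rfl)

@[fun_prop]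
theorem TC.headD {s : α → List β} {d : α → β} (hs : TC P T s) (hd : TC P T d) :
    TC P T (fun x => (s x).headD (d x)) :=
  (hs.head?.optionGetD hd).of_eq (fun x => by cases s x <;> rfl)

@[fun_prop]
theorem TC.tail {s : α → List β} (hs : TC P T s) : TC P T (fun x => (s x).tail) :=
  TC.raw LinRaw.snd hs (fun x _ => by cases s x <;> simp [Lib.PT.snd])

@[fun_prop]
theorem TC.isEmpty {s : α → List β} (hs : TC P T s) : TC P T (fun x => (s x).isEmpty) :=
  (TC.listCases (g := fun _ _ _ => false) hs (TC.const true) (TC.const false)).of_eq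
    (fun x => by cases s x <;> rfl)

/-! ### subtypes, `Fin`, raw strings -/

@[fun_prop]
theorem TC.subtypeVal {p : β → Prop} {f : α → Subtype p} (hf : TC P T f) :
    TC P T (fun x => (f x).1) := hf.recode (fun _ _ => rfl)


@[fun_prop]
theorem TC.finVal {n : ℕ} {f : α → Fin n} (hf : TC P T f) : TC P T (fun x => (f x : ℕ)) :=
  hf.recode (fun _ _ => rfl)




/-! ### polynomial-time steps -/

theorem polyEval_le_pow (p : Polynomial ℕ) :
    ∃ C k : ℕ, ∀ n : ℕ, p.eval n ≤ C * (n + 1) ^ k := by
  refine ⟨∑ i ∈ Finset.range (p.natDegree + 1), p.coeff i, p.natDegree, fun n => ?_⟩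
  rw [Polynomial.eval_eq_sum_range, Finset.sum_mul]
  refine Finset.sum_le_sum (fun i hi => Nat.mul_le_mul_left _ ?_)
  have hi' : i ≤ p.natDegree := Nat.lt_succ_iff.1 (Finset.mem_range.1 hi)
  exact (Nat.pow_le_pow_left (Nat.le_succ n) i).trans (Nat.pow_le_pow_right (Nat.succ_pos n) hi')

/-- a polynomial-time function runs in time `(sz x + 1) ^ k` for some `k` -/
theorem exists_tc_of_ptf {f : α → β} (hf : PTF f) :
    ∃ k : ℕ, TC (fun _ => True) (fun x => (sz x + 1) ^ k) f := by
  obtain ⟨g, ⟨c, p, hc⟩, hg⟩ := hf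
  obtain ⟨C, k, hk⟩ := polyEval_le_pow p
  refine ⟨k, TC.of_run c (n := fun x => C * (sz x + 1) ^ k) (Bud.self.const_mul C)
    (fun x _ => ?_)⟩
  rw [← hg x]
  exact (hc (enc x)).mono (hk _)

/-- `s` is so small that every polynomial in it is within the budget -/
@[fun_prop]
def Small (P : Dom α) (T : Cost α) (s : α → ℕ) : Prop :=
  ∀ k : ℕ, Bud P T (fun x => (s x + 1) ^ k)

theorem Small.mono {s s' : α → ℕ} (hs : Small P T s) (h : ∀ x, P x → s' x ≤ s x) :
    Small P T s' :=
  fun k => (hs k).mono (fun x hx => Nat.pow_le_pow_left (Nat.succ_le_succ (h x hx)) k)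

theorem Small.restrict {s : α → ℕ} (hs : Small P T s) (h : ∀ x, P' x → P x) : Small P' T s :=
  fun k => (hs k).restrict h

theorem Small.bud {s : α → ℕ} (hs : Small P T s) : Bud P T s :=
  (hs 1).mono (fun x _ => by simp)

/-- a quantity polynomially bounded by a small one is small -/
theorem Small.of_le_pow {s s' : α → ℕ} (hs : Small P T s) (C j : ℕ)
    (h : ∀ x, P x → s' x ≤ C * (s x + 1) ^ j) : Small P T s' := by
  intro k
  refine ((hs (j * k)).const_mul ((C + 1) ^ k)).mono (fun x hx => ?_)
  rw [pow_mul, ← mul_pow]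
  refine Nat.pow_le_pow_left ?_ k
  have h1 := h x hx
  have h2 : 1 ≤ (s x + 1) ^ j := Nat.one_le_pow _ _ (Nat.succ_pos _)
  rw [add_mul, one_mul]
  omega

theorem Small.const (n : ℕ) : Small P T (fun _ => n) := fun _ => Bud.const _

theorem Small.add {s s' : α → ℕ} (hs : Small P T s) (hs' : Small P T s') :
    Small P T (fun x => s x + s' x) := by
  intro k
  refine (((hs k).add (hs' k)).const_mul (2 ^ k)).mono (fun x _ => ?_)
  have h1 : s x + s' x + 1 ≤ 2 * max (s x + 1) (s' x + 1) := by omega
  refine (Nat.pow_le_pow_left h1 k).trans ?_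
  rw [mul_pow]
  refine Nat.mul_le_mul_left _ ?_
  rcases le_total (s x + 1) (s' x + 1) with h | h
  · rw [max_eq_right h]; omega
  · rw [max_eq_left h]; omega

theorem Small.mul {s s' : α → ℕ} (hs : Small P T s) (hs' : Small P T s') :
    Small P T (fun x => s x * s' x) :=
  (hs.add hs').of_le_pow 1 2 (fun x _ => by nlinarith)

/-- a polynomial-time step on a small argument -/
theorem TC.ptf {g : β → γ} {f : α → β} (hg : PTF g) (hf : TC P T f)
    (hs : Small P T (fun x => Lib.PT.sz (f x))) : TC P T (fun x => g (f x)) := by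
  obtain ⟨k, hk⟩ := exists_tc_of_ptf hg
  exact hk.comp hf (fun _ _ => trivial) (hs k)

/-- the output of a polynomial-time step on a small argument is small -/
theorem Small.ptf {g : β → γ} {f : α → β} (hg : PTF g)
    (hs : Small P T (fun x => Lib.PT.sz (f x))) : Small P T (fun x => Lib.PT.sz (g (f x))) := by
  obtain ⟨p, hp⟩ := hg.bound
  obtain ⟨C, k, hk⟩ := polyEval_le_pow p
  exact hs.of_le_pow C k (fun x _ => (hp _).trans (hk _))

/-- a polynomial-time function on inputs of bounded size is linear time -/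
theorem TC.of_ptf_bounded {f : α → β} (hf : PTF f) (M : ℕ) (hM : ∀ x, P x → Lib.PT.sz x ≤ M) :
    TC P T f :=
  TC.ptf hf TC.id ((Small.const M).mono hM)

/-! ### finite tables -/

/-- any function on a finite coded type -/
theorem Lin.of_finite [Finite α] (f : α → β) : Lin f := by
  obtain ⟨M, hM⟩ := OfTM.exists_sz_le α
  exact TC.of_ptf_bounded (PTF.of_finite f) M (fun x _ => hM x)

theorem TC.finite_comp [Finite β] (g : β → γ) {f : α → β} (hf : TC P T f) :
    TC P T (fun x => g (f x)) := TC.comp_lin (Lin.of_finite g) hf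

/-- case distinction over a finite type: each branch separately, knowing the value of the test -/
theorem TC.finite_cases' [Finite δ] {c : α → δ} {f : δ → α → γ} (hc : TC P T c)
    (h : ∀ d, TC (fun x => P x ∧ c x = d) T (f d)) : TC P T (fun x => f (c x) x) := by
  classical
  have := Fintype.ofFinite δ
  have key : ∀ l : List δ, TC (fun x => P x ∧ c x ∈ l) T (fun x => f (c x) x) := by
    intro l
    induction l with
    | nil => exact ⟨.skip, 0, fun x hx => by simp at hx⟩
    | cons d l ih =>
      have h1 : TC (fun x => P x ∧ c x ∈ d :: l) T (fun x => Decidable.decide (c x = d)) :=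
        TC.finite_comp (fun e => Decidable.decide (e = d)) (hc.restrict (fun _ h => h.1))
      refine (TC.ite' (p := fun x => c x = d) h1 ((h d).restrict (fun x hx => ⟨hx.1.1, hx.2⟩))
        (ih.restrict (fun x hx => ⟨hx.1.1, ?_⟩))).of_eq (fun x => ?_)
      · rcases List.mem_cons.1 hx.1.2 with h | h
        · exact absurd h hx.2
        · exact h
      · by_cases hx : c x = d
        · simp [hx]
        · simp [hx]
  exact (key (Finset.univ : Finset δ).toList).restrict (fun x hx => ⟨hx, by simp⟩)

theorem TC.finite_cases [Finite δ] {c : α → δ} {f : δ → α → γ} (hc : TC P T c)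
    (h : ∀ d, TC P T (f d)) : TC P T (fun x => f (c x) x) :=
  TC.finite_cases' hc (fun d => (h d).restrict (fun _ h => h.1))



/-- a list of fixed length whose entries are each within the budget -/
theorem TC.listMap_fixed {ι : Type} (l : List ι) {g : ι → α → β} (h : ∀ i ∈ l, TC P T (g i)) :
    TC P T (fun x => l.map (fun i => g i x)) := by
  induction l with
  | nil => exact TC.const []
  | cons i l ih => exact (h i (by simp)).listCons (ih (fun j hj => h j (by simp [hj])))


end Crest.Agent.X326
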