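import Crest.Agent.X326.TC.Core
import Crest.Agent.X326.TC.TU
import Crest.Agent.X326.TC.Cases

-- ▼ part X326/TC/UnRaw
section

/-!
# Raw programs for unary / binary conversion

* `run_toUn`   : binary to unary in time linear in the value (repeated doubling);
* `LinRaw.count` : the length of a bit string in binary in linear time (amortised counter).
-/

set_option autoImplicit false
set_option linter.dupNamespace false

namespace Crest.Agent.X326

open Crest.Agent.Lib.PT Function

namespace UnRaw

/-! ### binary to unary -/

/-- double the unary number on stack `0` -/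
def dbl : Cmd := .seq (mvMap 0 2 (fun _ => [true, true])) (mv 2 0)

theorem flatMap_two (a : ℕ) :
    (List.replicate a true).flatMap (fun _ => [true, true]) = List.replicate (2 * a) true := by
  induction a with
  | zero => rfl
  | succ a ih =>
    rw [List.replicate_succ, List.flatMap_cons, ih, show 2 * (a + 1) = (2 * a + 1) + 1 by ring]
    rfl

theorem run_dbl (a : ℕ) (l : List Bool) :
    Run dbl (st4 (List.replicate a true) l [] []) (st4 (List.replicate (2 * a) true) l [] [])
      (16 * a + 2) := by
  have h1 : Run (mvMap 0 2 (fun _ => [true, true])) (st4 (List.replicate a true) l [] [])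
      (st4 [] l (List.replicate (2 * a) true) []) (8 * a + 1) :=
    (run_mvMap (by decide) _ _).of_eq (by simp [flatMap_two]) (by simp)
  have h2 : Run (mv 2 0) (st4 [] l (List.replicate (2 * a) true) [])
      (st4 (List.replicate (2 * a) true) l [] []) (8 * a + 1) :=
    (run_mv (by decide) _).of_eq (by simp) (by simp; omega)
  exact (h1.seq h2).mono (by omega)

/-- one round: double, add the next bit -/
def toUnBody : Cmd := .seq dbl (.ite 1 .skip (.seq (.pop 1) (.push 0 true)) (.pop 1))

theorem run_toUnBody (a : ℕ) (b : Bool) (l : List Bool) :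
    Run toUnBody (st4 (List.replicate a true) (b :: l) [] [])
      (st4 (List.replicate (Nat.bit b a) true) l [] []) (16 * a + 5) := by
  refine ((run_dbl a (b :: l)).seq (s'' := st4 (List.replicate (Nat.bit b a) true) l [] [])
    (m := 3) ?_).mono (by omega)
  cases b
  · refine (Run.ite_false (l := l) rfl (run_pop 1 _)).of_eq ?_ (by omega)
    simp [Nat.bit]
  · refine (Run.ite_true (l := l) rfl ((run_pop 1 _).seq (run_push 0 true _))).of_eq ?_ (by omega)
    simp [Nat.bit, List.replicate_succ]

theorem run_toUnLoop (l : List Bool) (a : ℕ) :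
    ∃ t, Run (.loop 1 toUnBody) (st4 (List.replicate a true) l [] [])
      (st4 (List.replicate (l.foldl (fun n b => Nat.bit b n) a) true) [] [] []) t ∧
      t + 16 * a ≤ 16 * (l.foldl (fun n b => Nat.bit b n) a) + 6 * l.length + 1 := by
  induction l generalizing a with
  | nil => exact ⟨1, Run.loop_nil rfl, by simp; omega⟩
  | cons b l ih =>
    obtain ⟨t, ht, hle⟩ := ih (Nat.bit b a)
    refine ⟨_, Run.loop_cons (by simp) (run_toUnBody a b l) ht, ?_⟩
    have : 2 * a ≤ Nat.bit b a := by cases b <;> simp [Nat.bit]
    simp only [List.foldl_cons, List.length_cons]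
    omega

/-- binary to unary -/
def toUn : Cmd := .seq (mv 0 1) (.loop 1 toUnBody)

theorem run_toUn (n : ℕ) :
    Run toUn (init n.bits) (init (List.replicate n true)) (16 * n + 10 * n.size + 2) := by
  have h1 : Run (mv 0 1) (init n.bits) (st4 (List.replicate 0 true) n.bits.reverse [] [])
      (4 * n.size + 1) :=
    (run_mv (by decide) _).of_eq (by simp [init_eq_st4]) (by simp [Nat.size_eq_bits_len])
  obtain ⟨t, ht, hle⟩ := run_toUnLoop n.bits.reverse 0
  have e : n.bits.reverse.foldl (fun n b => Nat.bit b n) 0 = n := Arith.msb_bits_reverse n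
  rw [e] at ht hle
  rw [← init_eq_st4] at ht
  refine (h1.seq ht).mono ?_
  simp only [List.length_reverse, Nat.size_eq_bits_len] at hle
  omega

/-! ### the amortised binary counter -/

/-- successor on bit strings, least significant bit first -/
def incBits : List Bool → List Bool
  | [] => [true]
  | true :: l => false :: incBits l
  | false :: l => true :: l

/-- number of leading ones -/
def lead : List Bool → ℕ
  | true :: l => lead l + 1
  | _ => 0

/-- what is left after the leading ones and the first zero -/
def rest : List Bool → List Bool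
  | [] => []
  | true :: l => rest l
  | false :: l => l

theorem incBits_eq (z : List Bool) :
    incBits z = List.replicate (lead z) false ++ true :: rest z := by
  induction z with
  | nil => rfl
  | cons b z ih =>
    cases b
    · rfl
    · simp [incBits, lead, rest, ih, List.replicate_succ]

theorem count_incBits (z : List Bool) :
    (incBits z).count true + lead z = z.count true + 1 := by
  induction z with
  | nil => rfl
  | cons b z ih =>
    cases b
    · simp [incBits, lead]
    · simp only [incBits, lead, List.count_cons_self]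
      rw [List.count_cons_of_ne (by decide)]
      omega

theorem incBits_bits (n : ℕ) : incBits n.bits = (n + 1).bits := by
  induction n using Nat.binaryRec' with
  | zero => rfl
  | bit b n h ih =>
    rw [Nat.bits_append_bit n b h]
    cases b
    · have : Nat.bit false n + 1 = Nat.bit true n := by simp [Nat.bit]
      rw [this, Nat.bits_append_bit n true (by simp)]
      rfl
    · have : Nat.bit true n + 1 = Nat.bit false (n + 1) := by simp [Nat.bit]; ring
      rw [this, Nat.bits_append_bit (n + 1) false (by simp), ← ih]
      rfl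

theorem incBits_iterate (m n : ℕ) : incBits^[m] n.bits = (n + m).bits := by
  induction m generalizing n with
  | zero => rfl
  | succ m ih => rw [Function.iterate_succ_apply, incBits_bits, ih]; congr 1; ring

/-- body of the carry loop; counter on stack `0`, flag on `2`, carried zeros on `3` -/
def incBody : Cmd :=
  .ite 0 (.seq (.pop 2) (.push 0 true)) (.seq (.pop 0) (.push 3 false))
    (.seq (.pop 2) (.seq (.pop 0) (.push 0 true)))

theorem run_incLoop (z u acc : List Bool) :
    Run (.loop 2 incBody) (st4 z u [true] acc)
      (st4 (true :: rest z) u [] (List.replicate (lead z) false ++ acc)) (4 * lead z + 6) := by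
  have fin : ∀ a d : List Bool, Run (.loop 2 incBody) (st4 a u [] d) (st4 a u [] d) 1 :=
    fun a d => Run.loop_nil rfl
  induction z generalizing acc with
  | nil =>
    have hb : Run incBody (st4 [] u [true] acc) (st4 [true] u [] acc) 3 :=
      (Run.ite_nil rfl ((run_pop 2 _).seq (run_push 0 true _))).of_eq (by simp) (by omega)
    exact (Run.loop_cons (by simp) hb (fin _ _)).of_eq (by simp [rest, lead]) (by omega)
  | cons b z ih =>
    cases b
    · have hb : Run incBody (st4 (false :: z) u [true] acc) (st4 (true :: z) u [] acc) 4 :=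
        (Run.ite_false (l := z) rfl ((run_pop 2 _).seq ((run_pop 0 _).seq
          (run_push 0 true _)))).of_eq (by simp) (by omega)
      exact (Run.loop_cons (by simp) hb (fin _ _)).of_eq (by simp [rest, lead]) (by omega)
    · have hb : Run incBody (st4 (true :: z) u [true] acc) (st4 z u [true] (false :: acc)) 3 :=
        (Run.ite_true (l := z) rfl ((run_pop 0 _).seq (run_push 3 false _))).of_eq (by simp)
          (by omega)
      refine (Run.loop_cons (by simp) hb (ih (false :: acc))).of_eq ?_ ?_
      · simp only [rest, lead, List.replicate_succ', List.append_assoc, List.singleton_append]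
      · simp only [lead]; omega

/-- increment the counter on stack `0` -/
def inc : Cmd := .seq (.push 2 true) (.seq (.loop 2 incBody) (mv 3 0))

theorem run_inc (z u : List Bool) :
    Run inc (st4 z u [] []) (st4 (incBits z) u [] []) (8 * lead z + 8) := by
  have h1 : Run (.push 2 true) (st4 z u [] []) (st4 z u [true] []) 1 :=
    (run_push 2 true _).of_eq (by simp) le_rfl
  have h3 : Run (mv 3 0) (st4 (true :: rest z) u [] (List.replicate (lead z) false ++ []))
      (st4 (incBits z) u [] []) (4 * lead z + 1) :=
    (run_mv (by decide) _).of_eq (by simp [incBits_eq]) (by simp)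
  exact (h1.seq ((run_incLoop z u []).seq h3)).mono (by omega)

theorem run_countLoop (u z : List Bool) :
    ∃ t, Run (.loop 1 (.seq (.pop 1) inc)) (st4 z u [] []) (st4 (incBits^[u.length] z) [] [] []) t ∧
      t + 8 * (incBits^[u.length] z).count true ≤ 8 * z.count true + 18 * u.length + 1 := by
  induction u generalizing z with
  | nil => exact ⟨1, Run.loop_nil rfl, by simp; omega⟩
  | cons b u ih =>
    obtain ⟨t, ht, hle⟩ := ih (incBits z)
    have hb : Run (.seq (.pop 1) inc) (st4 z (b :: u) [] []) (st4 (incBits z) u [] [])
        (1 + (8 * lead z + 8)) :=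
      ((run_pop 1 _).of_eq (by simp) le_rfl).seq (run_inc z u)
    refine ⟨_, Run.loop_cons (by simp) hb ht, ?_⟩
    have := count_incBits z
    simp only [List.length_cons, Function.iterate_succ_apply]
    omega

end UnRaw

open UnRaw

/-- the length of a bit string, in binary -/
theorem LinRaw.count : LinRaw (fun x => x.length.bits) := by
  refine LinRaw.of_run (.seq (mv 0 1) (.loop 1 (.seq (.pop 1) inc))) 22 2 (fun x => ?_)
  have h1 : Run (mv 0 1) (init x) (st4 [] x.reverse [] []) (4 * x.length + 1) :=
    (run_mv (by decide) _).of_eq (by simp [init_eq_st4]) (by simp)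
  obtain ⟨t, ht, hle⟩ := run_countLoop x.reverse []
  have e : incBits^[x.reverse.length] [] = x.length.bits := by
    have := incBits_iterate x.length 0
    simpa using this
  rw [e] at ht hle
  rw [← init_eq_st4] at ht
  refine (h1.seq ht).mono ?_
  simp only [List.length_reverse, List.count_nil] at hle
  omega

end Crest.Agent.X326
private theorem rz_18ff487947 : type_of% @_root_.Crest.Agent.X326.UnRaw.incBits.eq_def := @_root_.Crest.Agent.X326.UnRaw.incBits.eq_def -- L89
private theorem rz_fd18241145 : type_of% @_root_.Crest.Agent.X326.UnRaw.incBits.eq_1 := @_root_.Crest.Agent.X326.UnRaw.incBits.eq_1 -- L89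
private theorem rz_fbcd95062d : type_of% @_root_.Crest.Agent.X326.UnRaw.lead.eq_def := @_root_.Crest.Agent.X326.UnRaw.lead.eq_def -- L95
private theorem rz_12401eb82d : type_of% @_root_.Crest.Agent.X326.UnRaw.lead.eq_1 := @_root_.Crest.Agent.X326.UnRaw.lead.eq_1 -- L95
private theorem rz_7a1fbd5ef5 : type_of% @_root_.Crest.Agent.X326.UnRaw.rest.eq_def := @_root_.Crest.Agent.X326.UnRaw.rest.eq_def -- L100
private theorem rz_3d469b61be : type_of% @_root_.Crest.Agent.X326.UnRaw.rest.eq_1 := @_root_.Crest.Agent.X326.UnRaw.rest.eq_1 -- L100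
end

-- ▼ part X326/TC/Un

/-!
# Unary / binary conversion, counters and small descriptors in the time calculus

* `TU.toNat` (unary to binary, linear), `TU.ofNat` (binary to unary, cost = value).
* `TC.length`, `TC.natSize`, `TC.szNat` : lengths and sizes in binary; `TU.size`, `TU.log2`.
* `TU.pow`, `TU.twoPow` (with a budget for the value), `TU.div`, `TU.mod`, `TC.twoPow`.
* more on `Small` : `Small.of_two_pow`, `Small.size`, `Small.sz_nat`, `Small.sz_pair`, `TC.ptf₂`;
  `TU.pt`, `TU.pt₂` : polynomial-time work on the binary forms of unary numbers is free.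
-/

set_option autoImplicit false
set_option linter.dupNamespace false

namespace Crest.Agent.X326

open Crest.Agent.Lib.PT Function

section

variable {α β γ : Type} [PTCode α] [PTCode β] [PTCode γ] {P P' : α → Prop} {T T' : α → ℕ}

theorem size_le_self (n : ℕ) : n.size ≤ n := Nat.size_le.2 Nat.lt_two_pow_self

/-! ### conversions -/

/-- binary to unary: the cost is the value -/
theorem tc_toUn : TC (fun _ : ℕ => True) (fun n => n) (fun n : ℕ => Un.mk n) := by
  refine TC.of_run UnRaw.toUn (n := fun n => 16 * n + 10 * n.size + 2)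
    (Bud.of_le 16 10 2 (fun n _ => by rw [sz_nat])) (fun n _ => UnRaw.run_toUn n)

/-- unary to binary is linear -/
theorem Lin.unVal : Lin (fun u : Un => u.val) :=
  LinRaw.count.lin (fun u => by simp [enc_nat])

theorem TC.unVal {f : α → Un} (hf : TC P T f) : TC P T (fun x => (f x).val) :=
  TC.comp_lin Lin.unVal hf

/-- a unary number can be converted to binary -/
theorem TU.toNat {n : α → ℕ} (hn : TU P T n) : TC P T n := TC.unVal hn

/-- a binary number whose value is within the budget can be converted to unary -/
theorem TU.ofNat {n : α → ℕ} (hn : TC P T n) (hb : Bud P T n) : TU P T n :=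
  TC.comp tc_toUn hn (fun _ _ => trivial) hb

/-! ### sizes and lengths -/

/-- the number of binary digits, in unary -/
@[fun_prop]
theorem TU.size {n : α → ℕ} (hn : TC P T n) : TU P T (fun x => (n x).size) :=
  (TU.sz hn).of_eq (fun _ => sz_nat _)


/-- the length of a list, in binary -/
@[fun_prop]
theorem TC.length {l : α → List β} (hl : TC P T l) : TC P T (fun x => (l x).length) :=
  (TU.length hl).toNat

/-- the number of binary digits, in binary -/
@[fun_prop]
theorem TC.natSize {n : α → ℕ} (hn : TC P T n) : TC P T (fun x => (n x).size) :=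
  (TU.size hn).toNat

/-- the size of a code, in binary -/
@[fun_prop]
theorem TC.szNat {f : α → β} (hf : TC P T f) : TC P T (fun x => Lib.PT.sz (f x)) :=
  (TU.sz hf).toNat

theorem Bud.length {l : α → List β} (hl : TC P T l) : Bud P T (fun x => (l x).length) :=
  (TU.length hl).bud

theorem TU.ite {p : α → Prop} [DecidablePred p] {m n : α → ℕ} (hc : TP P T p) (hm : TU P T m)
    (hn : TU P T n) : TU P T (fun x => if p x then m x else n x) :=
  TU.ite' hc.decide (hm.restrict (fun _ h => h.1)) (hn.restrict (fun _ h => h.1))

/-! ### small descriptors -/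

theorem Small.budget {s : α → ℕ} (hs : Small P T s) (hT : Bud P T' T) : Small P T' s :=
  fun k => (hs k).trans hT

theorem Small.comp {Q : β → Prop} {S : β → ℕ} {s : β → ℕ} (hs : Small Q S s) {e : α → β}
    (hQ : ∀ x, P x → Q (e x)) (hS : Bud P T (fun x => S (e x)))
    (hsz : Bud P T (fun x => Lib.PT.sz (e x))) : Small P T (fun x => s (e x)) :=
  fun k => (hs k).comp hQ hS hsz

attribute [fun_prop] Small.const Small.add Small.mul

theorem Small.succ {s : α → ℕ} (hs : Small P T s) : Small P T (fun x => s x + 1) := fun k => by
  refine ((hs k).const_mul (2 ^ k)).mono (fun x _ => ?_)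
  rw [← mul_pow]
  exact Nat.pow_le_pow_left (by beta_reduce; omega) k

@[fun_prop]
theorem Small.pow {s : α → ℕ} (hs : Small P T s) (j : ℕ) : Small P T (fun x => s x ^ j) := by
  induction j with
  | zero => exact (Small.const 1).mono (fun x _ => by simp)
  | succ j ih => exact (ih.mul hs).mono (fun x _ => by rw [pow_succ])

@[fun_prop]
theorem Small.max {s s' : α → ℕ} (hs : Small P T s) (hs' : Small P T s') :
    Small P T (fun x => Max.max (s x) (s' x)) := (hs.add hs').mono (fun x _ => by omega)

theorem Small.eval {s : α → ℕ} (hs : Small P T s) (p : Polynomial ℕ) :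
    Small P T (fun x => p.eval (s x)) := by
  induction p using Polynomial.induction_on' with
  | add p q hp hq => exact (hp.add hq).mono (fun x _ => by rw [Polynomial.eval_add])
  | monomial n a =>
    exact ((Small.const a).mul (hs.pow n)).mono (fun x _ => by rw [Polynomial.eval_monomial])

theorem pow_le_factorial_mul_two_pow (s k : ℕ) : (s + 1) ^ k ≤ k.factorial * 2 ^ k * 2 ^ s := by
  have h1 : (s + 1) ^ k ≤ (s + 1).ascFactorial k := Nat.pow_succ_le_ascFactorial (s + 1) k
  rw [Nat.ascFactorial_eq_factorial_mul_choose] at h1
  have h2 : (s + k).choose k ≤ 2 ^ (s + k) := Nat.choose_le_two_pow _ _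
  calc (s + 1) ^ k ≤ k.factorial * (s + k).choose k := h1
    _ ≤ k.factorial * 2 ^ (s + k) := Nat.mul_le_mul_left _ h2
    _ = k.factorial * 2 ^ k * 2 ^ s := by ring

/-- if `2 ^ s` is within the budget then `s` is small -/
theorem Small.of_two_pow {s : α → ℕ} (h : Bud P T (fun x => 2 ^ s x)) : Small P T s :=
  fun k => (h.const_mul (k.factorial * 2 ^ k)).mono
    (fun x _ => pow_le_factorial_mul_two_pow (s x) k)

theorem two_pow_size_le (n : ℕ) : 2 ^ n.size ≤ 2 * n + 1 := by
  rcases Nat.eq_zero_or_pos n with rfl | h
  · simp
  · have h1 : 0 < n.size := Nat.size_pos.2 h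
    have h2 : 2 ^ (n.size - 1) ≤ n := Nat.lt_size.1 (by omega)
    have : 2 ^ n.size = 2 * 2 ^ (n.size - 1) := by
      rw [← pow_succ']; congr 1; omega
    omega

/-- the binary size of a number within the budget is small -/
theorem Small.size {n : α → ℕ} (h : Bud P T n) : Small P T (fun x => (n x).size) :=
  Small.of_two_pow (((h.const_mul 2).add (Bud.const 1)).mono (fun x _ => two_pow_size_le (n x)))

theorem Small.sz_nat {n : α → ℕ} (h : Bud P T n) : Small P T (fun x => Lib.PT.sz (n x)) :=
  (Small.size h).mono (fun x _ => by rw [Lib.PT.sz_nat])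

theorem Small.sz_pair {f : α → β} {g : α → γ} (hf : Small P T (fun x => Lib.PT.sz (f x)))
    (hg : Small P T (fun x => Lib.PT.sz (g x))) : Small P T (fun x => Lib.PT.sz (f x, g x)) :=
  ((((Small.const 2).mul hf).add (Small.const 1)).add hg).mono
    (fun x _ => by simp [Lib.PT.sz])

theorem TC.ptf₂ {δ : Type} [PTCode δ] {g : β → γ → δ} (hg : PTF₂ g) {f : α → β}
    {f' : α → γ} (hf : TC P T f) (hf' : TC P T f') (hs : Small P T (fun x => Lib.PT.sz (f x)))
    (hs' : Small P T (fun x => Lib.PT.sz (f' x))) : TC P T (fun x => g (f x) (f' x)) :=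
  TC.ptf (f := fun x => (f x, f' x)) hg (hf.prodMk hf') (hs.sz_pair hs')

/-- a polynomial-time function of the binary form of a unary number -/
theorem TU.pt {g : ℕ → γ} (hg : PTF g) {n : α → ℕ} (hn : TU P T n) :
    TC P T (fun x => g (n x)) := TC.ptf hg hn.toNat (Small.sz_nat hn.bud)

/-- a polynomial-time function of the binary forms of two unary numbers -/
theorem TU.pt₂ {g : ℕ → ℕ → γ} (hg : PTF₂ g) {m n : α → ℕ} (hm : TU P T m) (hn : TU P T n) :
    TC P T (fun x => g (m x) (n x)) :=
  TC.ptf₂ hg hm.toNat hn.toNat (Small.sz_nat hm.bud) (Small.sz_nat hn.bud)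

@[fun_prop]
theorem TU.div {m n : α → ℕ} (hm : TU P T m) (hn : TU P T n) :
    TU P T (fun x => m x / n x) :=
  TU.ofNat (TU.pt₂ (g := fun a b => a / b) (by pt_prop) hm hn)
    (hm.bud.mono (fun x _ => Nat.div_le_self _ _))

@[fun_prop]
theorem TU.mod {m n : α → ℕ} (hm : TU P T m) (hn : TU P T n) :
    TU P T (fun x => m x % n x) :=
  TU.ofNat (TU.pt₂ (g := fun a b => a % b) (by pt_prop) hm hn)
    (hm.bud.mono (fun x _ => Nat.mod_le _ _))

@[fun_prop]
theorem TU.log2 {n : α → ℕ} (hn : TC P T n) : TU P T (fun x => (n x).log2) :=
  (TU.size hn).pred.of_eq (fun x => by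
    rw [Nat.log2_eq_log_two]
    rcases Nat.eq_zero_or_pos (n x) with h | h
    · simp [h]
    · rw [Nat.pred_eq_sub_one]
      symm
      have h1 : 0 < (n x).size := Nat.size_pos.2 h
      refine Nat.log_eq_of_pow_le_of_lt_pow (Nat.lt_size.1 (by omega)) ?_
      rw [Nat.sub_add_cancel h1]
      exact Nat.lt_size_self _)

/-! ### powers -/

/-- the binary number `2 ^ k` from a unary `k` -/
theorem TC.twoPow {k : α → ℕ} (hk : TU P T k) : TC P T (fun x => 2 ^ k x) := by
  have h1 : TC P T (fun x => Bits.mk (List.replicate (k x) false)) :=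
    TC.raw (LinRaw.flatMap (fun _ => [false])) hk (fun x _ => by
      simp only [enc_un, enc_bits]
      induction k x with
      | zero => rfl
      | succ a ih => simp [List.replicate_succ, ih])
  refine TC.raw LinRaw.append (h1.prodMk (TC.const true)) (fun x _ => ?_)
  simp only [enc_prod, enc_bits, fst_pair, snd_pair, enc_bool, enc_nat]
  induction k x with
  | zero => rfl
  | succ a ih =>
    have : 2 ^ (a + 1) = Nat.bit false (2 ^ a) := by simp [Nat.bit]; ring
    rw [this, Nat.bits_append_bit _ _ (by simp), ← ih]
    rfl

/-- `2 ^ k` in unary; the value has to be within the budget -/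
theorem TU.twoPow {k : α → ℕ} (hk : TU P T k) (hb : Bud P T (fun x => 2 ^ k x)) :
    TU P T (fun x => 2 ^ k x) := TU.ofNat (TC.twoPow hk) hb

/-- `m ^ k` in binary when its value is within the budget -/
theorem TC.pow_of_bud {m k : α → ℕ} (hm : TU P T m) (hk : TU P T k)
    (hb : Bud P T (fun x => m x ^ k x)) : TC P T (fun x => m x ^ k x) := by
  have h1 : TC (fun x => P x ∧ m x ≤ 1) T (fun x => m x ^ k x) := by
    refine (TC.ite' (p := fun x => k x = 0) (f := fun _ => 1) (g := m)
      (hk.decide_eq_zero.restrict (fun _ h => h.1)) (TC.const 1)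
      (hm.toNat.restrict (fun _ h => h.1.1))).congr (fun x hx => ?_)
    by_cases h : k x = 0
    · simp [h]
    · rw [if_neg h]
      rcases Nat.le_one_iff_eq_zero_or_eq_one.1 hx.2 with h0 | h0 <;> simp [h0, h]
  have h2 : TC (fun x => P x ∧ ¬ m x ≤ 1) T (fun x => m x ^ k x) := by
    have hg : PTF₂ (fun (a : ℕ) (u : Un) => a ^ u.val) := by
      dsimp only [PTF₂]
      exact PTF.natPow PTF.fst (PTU.val PTF.snd)
    refine TC.ptf₂ hg (f := m) (f' := fun x => Un.mk (k x))
      (hm.toNat.restrict (fun _ h => h.1)) (TC.restrict hk (fun _ h => h.1))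
      ((Small.sz_nat hm.bud).restrict (fun _ h => h.1)) ?_
    refine (Small.of_two_pow (s := k) ((hb.restrict (fun _ h => h.1)).mono
      (fun x hx => Nat.pow_le_pow_left (by omega) _))).mono (fun x _ => by rw [Lib.PT.sz_un])
  exact (TC.ite' (hm.decide_le (TU.const 1)) h1 h2).of_eq (fun x => by split <;> rfl)

/-- `m ^ k` in unary; the value has to be within the budget -/
theorem TU.pow {m k : α → ℕ} (hm : TU P T m) (hk : TU P T k)
    (hb : Bud P T (fun x => m x ^ k x)) : TU P T (fun x => m x ^ k x) :=
  TU.ofNat (TC.pow_of_bud hm hk hb) hb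

end

end Crest.Agent.X326
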