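import Crest.Agent.X326.TC.NatLin

/-!
# Linear-time arithmetic on binary integers
-/

set_option autoImplicit false
set_option linter.dupNamespace false

namespace Crest.Agent.X326

open Crest.Agent.Lib.PT Function

variable {α : Type} [PTCode α] {P : α → Prop} {T : α → ℕ} {f g : α → ℤ} {k : α → ℕ}

theorem TC.intIsNeg (hf : TC P T f) : TC P T (fun x => decide (f x < 0)) :=
  (TC.recode (g := fun x => (decide (f x < 0), (f x).natAbs)) hf (fun _ _ => rfl)).fst

@[fun_prop]
theorem TC.intNatAbs (hf : TC P T f) : TC P T (fun x => (f x).natAbs) :=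
  (TC.recode (g := fun x => (decide (f x < 0), (f x).natAbs)) hf (fun _ _ => rfl)).snd

theorem enc_mkInt (b : Bool) (n : ℕ) :
    enc (b && !(decide (n = 0)), n) = enc (Arith.mkInt b n) := by
  rw [enc_int]
  congr 1
  rcases Nat.eq_zero_or_pos n with rfl | hn
  · simp [Arith.mkInt]
  · have h1 : decide (n = 0) = false := by simp; omega
    cases b
    · simp [Arith.mkInt]
    · simp only [h1, Arith.mkInt, Prod.mk.injEq]
      constructor
      · simp [hn]
      · simp

/-- integer from sign and absolute value -/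
@[fun_prop]
theorem TC.intMk {b : α → Bool} {n : α → ℕ} (hb : TC P T b) (hn : TC P T n) :
    TC P T (fun x => Arith.mkInt (b x) (n x)) :=
  ((hb.and (hn.decideEq (TC.const 0)).not).prodMk hn).recode (fun _ _ => enc_mkInt _ _)

@[fun_prop]
theorem TC.intNatCast {n : α → ℕ} (hn : TC P T n) : TC P T (fun x => (n x : ℤ)) :=
  (TC.intMk (TC.const false) hn).of_eq (fun x => by simp [Arith.mkInt])

@[fun_prop]
theorem TC.intOfNat {n : α → ℕ} (hn : TC P T n) : TC P T (fun x => Int.ofNat (n x)) :=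
  hn.intNatCast

@[fun_prop]
theorem TC.intNeg (hf : TC P T f) : TC P T (fun x => - f x) :=
  (TC.intMk hf.intIsNeg.not hf.intNatAbs).of_eq (fun x => by
    rw [Arith.mkInt]
    split_ifs with h
    · have : ¬ f x < 0 := by simpa using h
      omega
    · have : f x < 0 := by simpa using h
      omega)

@[fun_prop]
theorem TC.intAbs (hf : TC P T f) : TC P T (fun x => |f x|) :=
  hf.intNatAbs.intNatCast.of_eq (fun x => by simp)

@[fun_prop]
theorem TC.intAdd (hf : TC P T f) (hg : TC P T g) : TC P T (fun x => f x + g x) := by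
  have h1 := hf.intIsNeg
  have h2 := hg.intIsNeg
  have h3 := hf.intNatAbs
  have h4 := hg.intNatAbs
  have h5 : TP P T (fun a => (g a).natAbs ≤ (f a).natAbs) := TP.natLe h4 h3
  have h := TC.cond (TC.xor h1 h2)
    (TC.ite h5 (TC.intMk h1 (TC.natSub h3 h4)) (TC.intMk h2 (TC.natSub h4 h3)))
    (TC.intMk h1 (TC.natAdd h3 h4))
  exact h.of_eq (fun a => Arith.add_formula (f a) (g a))

@[fun_prop]
theorem TC.intSub (hf : TC P T f) (hg : TC P T g) : TC P T (fun x => f x - g x) :=
  (hf.intAdd hg.intNeg).of_eq (fun _ => (sub_eq_add_neg _ _).symm)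

theorem TC.intDecideLt (hf : TC P T f) (hg : TC P T g) : TC P T (fun x => decide (f x < g x)) :=
  (hf.intSub hg).intIsNeg.of_eq (fun x => by simp)

theorem TC.intDecideLe (hf : TC P T f) (hg : TC P T g) : TC P T (fun x => decide (f x ≤ g x)) :=
  (hg.intDecideLt hf).not.of_eq (fun x => by by_cases h : f x ≤ g x <;> simp [h]; omega)

@[fun_prop]
theorem TP.intLt (hf : TC P T f) (hg : TC P T g) : TP P T (fun x => f x < g x) :=
  TP.of_tc (hf.intDecideLt hg)

@[fun_prop]
theorem TP.intLe (hf : TC P T f) (hg : TC P T g) : TP P T (fun x => f x ≤ g x) :=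
  TP.of_tc (hf.intDecideLe hg)

@[fun_prop]
theorem TP.intGt (hf : TC P T f) (hg : TC P T g) : TP P T (fun x => f x > g x) :=
  TP.intLt hg hf

@[fun_prop]
theorem TP.intGe (hf : TC P T f) (hg : TC P T g) : TP P T (fun x => f x ≥ g x) :=
  TP.intLe hg hf

@[fun_prop]
theorem TC.intToNat (hf : TC P T f) : TC P T (fun x => (f x).toNat) :=
  (TC.cond hf.intIsNeg (TC.const 0) hf.intNatAbs).of_eq (fun x => by
    by_cases h : f x < 0 <;> simp [h] <;> omega)

@[fun_prop]
theorem TC.intMax (hf : TC P T f) (hg : TC P T g) : TC P T (fun x => max (f x) (g x)) :=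
  (TC.ite (TP.intLe hf hg) hg hf).of_eq (fun _ => (max_def _ _).symm)

@[fun_prop]
theorem TC.intMin (hf : TC P T f) (hg : TC P T g) : TC P T (fun x => min (f x) (g x)) :=
  (TC.ite (TP.intLe hf hg) hf hg).of_eq (fun _ => (min_def _ _).symm)

@[fun_prop]
theorem TC.intSign (hf : TC P T f) : TC P T (fun x => (f x).sign) :=
  (TC.ite (TP.intLt hf (TC.const 0)) (TC.const (-1))
    (TC.ite (TP.eq hf (TC.const 0)) (TC.const 0) (TC.const 1))).of_eq (fun x => by
      split_ifs with h1 h2
      · exact (Int.sign_eq_neg_one_of_neg h1).symm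
      · rw [h2]; rfl
      · exact (Int.sign_eq_one_of_pos (by omega)).symm)

/-- an integer product from the product of the absolute values -/
theorem TC.intMul_of_natAbs (hf : TC P T f) (hg : TC P T g)
    (h : TC P T (fun x => (f x).natAbs * (g x).natAbs)) : TC P T (fun x => f x * g x) := by
  refine (TC.intMk (TC.xor hf.intIsNeg hg.intIsNeg) h).of_eq (fun a => ?_)
  conv_rhs => rw [← Arith.mkInt_eta (f a), ← Arith.mkInt_eta (g a)]
  cases decide (f a < 0) <;> cases decide (g a < 0) <;> simp [Arith.mkInt]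

/-- multiplication by a fixed constant -/
@[fun_prop]
theorem TC.intConstMul (c : ℤ) (hf : TC P T f) : TC P T (fun x => c * f x) :=
  TC.intMul_of_natAbs (TC.const c) hf (hf.intNatAbs.natConstMul _)

@[fun_prop]
theorem TC.intMulConst (c : ℤ) (hf : TC P T f) : TC P T (fun x => f x * c) :=
  (hf.intConstMul c).of_eq (fun _ => mul_comm _ _)

@[fun_prop]
theorem TC.intTwoPow (hk : TU P T k) : TC P T (fun x => (2 : ℤ) ^ k x) :=
  (TC.natTwoPow hk).intNatCast.of_eq (fun x => by simp)

@[fun_prop]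
theorem TC.intMulTwoPow (hf : TC P T f) (hk : TU P T k) : TC P T (fun x => f x * 2 ^ k x) :=
  TC.intMul_of_natAbs hf (TC.intTwoPow hk) ((hf.intNatAbs.natMulTwoPow hk).of_eq (fun x => by
    simp [Int.natAbs_pow]))

@[fun_prop]
theorem TC.intTwoPowMul (hk : TU P T k) (hf : TC P T f) : TC P T (fun x => 2 ^ k x * f x) :=
  (hf.intMulTwoPow hk).of_eq (fun _ => mul_comm _ _)

theorem int_ediv_two_pow (z : ℤ) (k : ℕ) : z / 2 ^ k =
    if z < 0 then -(((z.natAbs - 1) / 2 ^ k : ℕ) : ℤ) - 1 else ((z.natAbs / 2 ^ k : ℕ) : ℤ) := by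
  split_ifs with h
  · obtain ⟨m, rfl⟩ := Int.eq_negSucc_of_lt_zero h
    rw [Int.negSucc_ediv m (by positivity)]
    simp only [Int.natAbs_negSucc, Nat.succ_eq_add_one, Nat.add_sub_cancel]
    push_cast
    show -((m : ℤ) / 2 ^ k + 1) = _
    ring
  · obtain ⟨m, rfl⟩ := Int.eq_ofNat_of_zero_le (not_lt.1 h)
    simp

/-- floor division by a power of two -/
@[fun_prop]
theorem TC.intDivTwoPow (hf : TC P T f) (hk : TU P T k) : TC P T (fun x => f x / 2 ^ k x) :=
  (TC.ite (TP.intLt hf (TC.const 0))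
    ((((hf.intNatAbs.natSub (TC.const 1)).natDivTwoPow hk).intNatCast.intNeg).intSub (TC.const 1))
    (hf.intNatAbs.natDivTwoPow hk).intNatCast).of_eq (fun _ => (int_ediv_two_pow _ _).symm)

/-- nonnegative remainder modulo a power of two -/
@[fun_prop]
theorem TC.intModTwoPow (hf : TC P T f) (hk : TU P T k) : TC P T (fun x => f x % 2 ^ k x) :=
  (hf.intSub (TC.intTwoPowMul hk (hf.intDivTwoPow hk))).of_eq (fun _ => (Int.emod_def _ _).symm)

theorem TC.intDivTwo (hf : TC P T f) : TC P T (fun x => f x / 2) :=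
  (hf.intDivTwoPow (TU.const 1)).of_eq (fun x => by simp)


@[fun_prop]
theorem TC.intShiftRight (hf : TC P T f) (hk : TU P T k) : TC P T (fun x => f x >>> k x) :=
  (hf.intDivTwoPow hk).of_eq (fun x => by rw [Int.shiftRight_eq_div_pow]; simp)





/-- the balanced representative of a residue `c < M` -/
def balL (M c : ℕ) : ℤ := if 2 * c < M then (c : ℤ) else (c : ℤ) - M




@[fun_prop]
theorem TC.balL {M c : α → ℕ} (hM : TC P T M) (hc : TC P T c) :
    TC P T (fun x => balL (M x) (c x)) :=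
  TC.ite (TP.natLt (hc.natConstMul 2) hM) hc.intNatCast (hc.intNatCast.intSub hM.intNatCast)

/-! ### `Lin` forms and sizes -/

theorem Lin.intAdd : Lin (fun p : ℤ × ℤ => p.1 + p.2) := by fun_prop
theorem Lin.intSub : Lin (fun p : ℤ × ℤ => p.1 - p.2) := by fun_prop
theorem Lin.intNeg : Lin (fun z : ℤ => -z) := by fun_prop

theorem sz_int_le_of_natAbs_lt {z : ℤ} {k : ℕ} (h : z.natAbs < 2 ^ k) : sz z ≤ k + 3 := by
  rw [sz_int]
  have := Nat.size_le.2 h
  omega

theorem sz_int_le_of_abs_lt {z : ℤ} {k : ℕ} (h : |z| < 2 ^ k) : sz z ≤ k + 3 :=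
  sz_int_le_of_natAbs_lt (by zify; simpa using h)


end Crest.Agent.X326
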