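import Crest.Agent.X326.TC.Cases
import Crest.Agent.X326.TC.ListRun

/-!
# Fine-grained time calculus: while loops and recursion with an explicit frame stack

* `WhileRun`, `TC.whileRun` : iterate `step : A → A ⊕ B` until it answers `inr`.
* `RecRun`, `TC.recRun` : the recursion machine, `step : X ⊕ (K × Y) → (K × X) ⊕ Y`
  (`inl x` = a call, `inr (k, y)` = a child returned `y` to the frame `k`;
  `inl (k, x)` = save the frame `k` and call `x`, `inr y` = return `y`).
  The cost is the sum of `T a + sz a + 1` over all transitions `a`.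

Direct-style wrappers are in `TC/RecStage.lean`.
-/

set_option autoImplicit false
set_option linter.dupNamespace false

namespace Crest.Agent.X326

open Crest.Agent.Lib.PT Function ListRun

/-! ### while loops -/

section whileLoop

variable {A B : Type} [PTCode A] [PTCode B]

/-- `WhileRun step P T a b n`: iterating `step` from `a` ends with `b`; all visited states satisfy
`P`, and `n` is the sum of `T a + sz a + 1` over the visited states. -/
inductive WhileRun (step : A → A ⊕ B) (P : A → Prop) (T : A → ℕ) : A → B → ℕ → Prop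
  | done {a : A} {b : B} : P a → step a = Sum.inr b → WhileRun step P T a b (T a + sz a + 1)
  | next {a a' : A} {b : B} {n : ℕ} : P a → step a = Sum.inl a' → WhileRun step P T a' b n →
      WhileRun step P T a b (T a + sz a + 1 + n)




end whileLoop

/-! ### recursion -/

section recursion

variable {X Y K : Type} [PTCode X] [PTCode Y] [PTCode K]

/-- `RecRun step P T a y n`: the recursion machine started on the transition `a` (a call `inl x`
or a return `inr (k, y')` into the frame `k`) finishes the current node with the result `y`; all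
transitions satisfy `P`, and `n` is the sum of `T a + sz a + 1` over all transitions. -/
inductive RecRun (step : X ⊕ (K × Y) → (K × X) ⊕ Y) (P : X ⊕ (K × Y) → Prop)
    (T : X ⊕ (K × Y) → ℕ) : X ⊕ (K × Y) → Y → ℕ → Prop
  | ret {a : X ⊕ (K × Y)} {y : Y} : P a → step a = Sum.inr y →
      RecRun step P T a y (T a + sz a + 1)
  | call {a : X ⊕ (K × Y)} {k : K} {x : X} {y₁ y : Y} {n₁ n₂ : ℕ} : P a →
      step a = Sum.inl (k, x) → RecRun step P T (Sum.inl x) y₁ n₁ →
      RecRun step P T (Sum.inr (k, y₁)) y n₂ → RecRun step P T a y (T a + sz a + 1 + n₁ + n₂)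

/-- return: pop a frame (or the bottom marker) -/
def recRet : Cmd :=
  .ite 0 .skip (.seq (.pop 0) (.seq (mvCell 0 1 2) (.seq (mv 1 3) (.push 3 true)))) (.pop 0)

/-- call: push a frame -/
def recCall : Cmd :=
  .seq (.pop 3) (.seq (mvCell 3 1 2) (.seq (mv 1 0) (.seq (.push 0 true) (.push 3 false))))

/-- body of the recursion loop -/
def recBody (c : Cmd) : Cmd :=
  .seq (c.shift 3) (.ite 3 .skip (.seq (.pop 3) recRet) recCall)

theorem call_three {c : Cmd} {x y : List Bool} {n : ℕ} (h : Run c (init x) (init y) n)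
    (a b d : List Bool) : Run (c.shift 3) (st4 a b d x) (st4 a b d y) n := by
  refine (call_run h 3 (st4 a b d x) rfl ?_).of_eq (by simp) le_rfl
  intro j hj
  rcases j with _ | _ | _ | _ | j
  · omega
  · omega
  · omega
  · omega
  · rfl

theorem run_recCall (F k x : List Bool) :
    Run recCall (st4 F [] [] (false :: pair k x)) (st4 (true :: pair k F) [] [] (false :: x))
      (18 * k.length + 16) := by
  have h1 : Run (.pop 3) (st4 F [] [] (false :: pair k x)) (st4 F [] [] (pair k x)) 1 :=
    (run_pop 3 _).of_eq (by simp) le_rfl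
  have h2 : Run (mvCell 3 1 2) (st4 F [] [] (pair k x)) (st4 F (cell k).reverse [] x)
      (10 * k.length + 8) :=
    (run_mvCell (by decide) (by decide) (by decide) k x _ rfl rfl).of_eq (by simp) le_rfl
  have h3 : Run (mv 1 0) (st4 F (cell k).reverse [] x) (st4 (pair k F) [] [] x)
      (4 * (2 * k.length + 1) + 1) :=
    (run_mv (by decide) _).of_eq (by simp [pair_eq_cell]) (by simp)
  have h4 : Run (.push 0 true) (st4 (pair k F) [] [] x) (st4 (true :: pair k F) [] [] x) 1 :=
    (run_push 0 true _).of_eq (by simp) le_rfl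
  have h5 : Run (.push 3 false) (st4 (true :: pair k F) [] [] x)
      (st4 (true :: pair k F) [] [] (false :: x)) 1 :=
    (run_push 3 false _).of_eq (by simp) le_rfl
  exact (h1.seq (h2.seq (h3.seq (h4.seq h5)))).mono (by omega)

theorem run_recRet_frame (F k y : List Bool) :
    Run recRet (st4 (true :: pair k F) [] [] y) (st4 F [] [] (true :: pair k y))
      (18 * k.length + 16) := by
  have h1 : Run (.pop 0) (st4 (true :: pair k F) [] [] y) (st4 (pair k F) [] [] y) 1 :=
    (run_pop 0 _).of_eq (by simp) le_rfl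
  have h2 : Run (mvCell 0 1 2) (st4 (pair k F) [] [] y) (st4 F (cell k).reverse [] y)
      (10 * k.length + 8) :=
    (run_mvCell (by decide) (by decide) (by decide) k F _ rfl rfl).of_eq (by simp) le_rfl
  have h3 : Run (mv 1 3) (st4 F (cell k).reverse [] y) (st4 F [] [] (pair k y))
      (4 * (2 * k.length + 1) + 1) :=
    (run_mv (by decide) _).of_eq (by simp [pair_eq_cell]) (by simp)
  have h4 : Run (.push 3 true) (st4 F [] [] (pair k y)) (st4 F [] [] (true :: pair k y)) 1 :=
    (run_push 3 true _).of_eq (by simp) le_rfl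
  exact (Run.ite_true (l := pair k F) rfl (h1.seq (h2.seq (h3.seq h4)))).mono (by omega)

theorem run_recRet_bottom (y : List Bool) :
    Run recRet (st4 [false] [] [] y) (st4 [] [] [] y) 2 :=
  Run.ite_false (n := 1) (l := []) rfl ((run_pop 0 _).of_eq (by simp) le_rfl)

theorem run_recLoop {step : X ⊕ (K × Y) → (K × X) ⊕ Y} {P : X ⊕ (K × Y) → Prop}
    {T : X ⊕ (K × Y) → ℕ} {c : Cmd} {C : ℕ}
    (hc : ∀ a, P a → Run c (init (enc a)) (init (enc (step a))) (C * (T a + sz a + 1)))
    {a : X ⊕ (K × Y)} {y : Y} {n : ℕ} (h : RecRun step P T a y n) :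
    sz y ≤ (C + 1) * n ∧ ∀ (F : List Bool) (S₁ S' : Store) (r m : ℕ), F ≠ [] →
      Run recRet (st4 F [] [] (enc y)) S₁ r → Run (.loop 0 (recBody c)) S₁ S' m →
      Run (.loop 0 (recBody c)) (st4 F [] [] (enc a)) S' ((19 * C + 52) * n + r + m) := by
  induction h with
  | @ret a y ha hs =>
    have h0 := hc a ha
    have hl := Run.length_le h0
    rw [hs] at h0 hl
    refine ⟨?_, fun F S₁ S' r m hF hr hm => ?_⟩
    · have : (C + 1) * (T a + sz a + 1) = C * (T a + sz a + 1) + (T a + sz a + 1) := by ring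
      simp only [enc_inr, List.length_cons, length_enc] at hl
      omega
    · have h1 := call_three h0 F [] []
      have h2 : Run (.pop 3) (st4 F [] [] (enc (Sum.inr y : (K × X) ⊕ Y)))
          (st4 F [] [] (enc y)) 1 := (run_pop 3 _).of_eq (by simp) le_rfl
      have h3 : Run (.ite 3 .skip (.seq (.pop 3) recRet) recCall)
          (st4 F [] [] (enc (Sum.inr y : (K × X) ⊕ Y))) S₁ (1 + (1 + r)) :=
        Run.ite_true (l := enc y) rfl (h2.seq hr)
      refine (Run.loop_cons (k := 0) (by simpa using hF) (h1.seq h3) hm).mono ?_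
      have : (19 * C + 52) * (T a + sz a + 1) =
          C * (T a + sz a + 1) + (18 * C * (T a + sz a + 1) + 52 * (T a + sz a + 1)) := by ring
      omega
  | @call a k x y₁ y n₁ n₂ ha hs _ _ ih₁ ih₂ =>
    have h0 := hc a ha
    have hl := Run.length_le h0
    rw [hs] at h0 hl
    refine ⟨?_, fun F S₁ S' r m hF hr hm => ?_⟩
    · have : (C + 1) * (T a + sz a + 1 + n₁ + n₂) =
          (C + 1) * (T a + sz a + 1 + n₁) + (C + 1) * n₂ := by ring
      have := ih₂.1
      omega
    · have h1 := call_three h0 F [] []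
      have h3 : Run (.ite 3 .skip (.seq (.pop 3) recRet) recCall)
          (st4 F [] [] (enc (Sum.inl (k, x) : (K × X) ⊕ Y)))
          (st4 (true :: pair (enc k) F) [] [] (enc (Sum.inl x : X ⊕ (K × Y))))
          (1 + (18 * (enc k).length + 16)) :=
        Run.ite_false (l := pair (enc k) (enc x)) rfl (run_recCall F (enc k) (enc x))
      have h4 := ih₂.2 F S₁ S' r m hF hr hm
      have h5 := ih₁.2 (true :: pair (enc k) F) _ S' _ _ (by simp)
        (run_recRet_frame F (enc k) (enc y₁)) h4
      refine (Run.loop_cons (k := 0) (by simpa using hF) (h1.seq h3) h5).mono ?_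
      have e1 : (19 * C + 52) * (T a + sz a + 1 + n₁ + n₂) =
          C * (T a + sz a + 1) + 18 * (C * (T a + sz a + 1)) + 52 * (T a + sz a + 1) +
            (19 * C + 52) * n₁ + (19 * C + 52) * n₂ := by ring
      have e2 : sz (Sum.inl (k, x) : (K × X) ⊕ Y) = 2 * sz k + 1 + sz x + 1 := by simp
      simp only [length_enc] at hl ⊢
      omega

/-- **Recursion.** -/
theorem TC.recRun {step : X ⊕ (K × Y) → (K × X) ⊕ Y} {P : X ⊕ (K × Y) → Prop}
    {T : X ⊕ (K × Y) → ℕ} (hstep : TC P T step) {Q : X → Prop} {S : X → ℕ} {f : X → Y} (C₀ : ℕ)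
    (h : ∀ x, Q x → ∃ n, RecRun step P T (Sum.inl x) (f x) n ∧
      n ≤ C₀ * (S x + Lib.PT.sz x + 1)) : TC Q S f := by
  obtain ⟨c, C, hc⟩ := hstep
  refine ⟨.seq (mv 0 1) (.seq (mv 1 3) (.seq (.push 3 false) (.seq (.push 0 false)
    (.seq (.loop 0 (recBody c)) (.seq (mv 3 1) (mv 1 0)))))), (27 * C + 60) * C₀ + 17,
    fun x hx => ?_⟩
  obtain ⟨n, hn, hle⟩ := h x hx
  obtain ⟨hsz, hloop⟩ := run_recLoop hc hn
  have h1 : Run (mv 0 1) (init (enc x)) (st4 [] (enc x).reverse [] []) (4 * Lib.PT.sz x + 1) := by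
    rw [init_eq_st4]
    exact (run_mv (by decide) _).of_eq (by simp) (by simp [length_enc])
  have h2 : Run (mv 1 3) (st4 [] (enc x).reverse [] []) (st4 [] [] [] (enc x))
      (4 * Lib.PT.sz x + 1) := (run_mv (by decide) _).of_eq (by simp) (by simp [length_enc])
  have h3 : Run (.push 3 false) (st4 [] [] [] (enc x)) (st4 [] [] [] (false :: enc x)) 1 :=
    (run_push 3 false _).of_eq (by simp) le_rfl
  have h4 : Run (.push 0 false) (st4 [] [] [] (false :: enc x))
      (st4 [false] [] [] (enc (Sum.inl x : X ⊕ (K × Y)))) 1 :=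
    (run_push 0 false _).of_eq (by simp) le_rfl
  have h5 := hloop [false] _ _ _ _ (by simp) (run_recRet_bottom (enc (f x)))
    (Run.loop_nil (k := 0) (c := recBody c) rfl)
  have h6 : Run (mv 3 1) (st4 [] [] [] (enc (f x))) (st4 [] (enc (f x)).reverse [] [])
      (4 * Lib.PT.sz (f x) + 1) := (run_mv (by decide) _).of_eq (by simp) (by simp [length_enc])
  have h7 : Run (mv 1 0) (st4 [] (enc (f x)).reverse [] []) (init (enc (f x)))
      (4 * Lib.PT.sz (f x) + 1) :=
    (run_mv (by decide) _).of_eq (by simp [init_eq_st4]) (by simp [length_enc])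
  refine (h1.seq (h2.seq (h3.seq (h4.seq (h5.seq (h6.seq h7)))))).mono ?_
  have e1 : (27 * C + 60) * n ≤ (27 * C + 60) * (C₀ * (S x + Lib.PT.sz x + 1)) :=
    Nat.mul_le_mul_left _ hle
  have e2 : ((27 * C + 60) * C₀ + 17) * (S x + Lib.PT.sz x + 1) =
      (27 * C + 60) * (C₀ * (S x + Lib.PT.sz x + 1)) + 17 * (S x + Lib.PT.sz x + 1) := by ring
  have e3 : (27 * C + 60) * n = (19 * C + 52) * n + 8 * ((C + 1) * n) := by ring
  omega

end recursion

end Crest.Agent.X326
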