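import Crest.Agent.Lib.PT.Iter
import Crest.Agent.X326.TC.Core

-- ▼ part X326/TC/MergeRaw
section

/-!
# Row 326, machine layer: control-driven transducers on coded lists (raw `Cmd` level)

A control string (a list of tokens) drives a program which moves, drops or copies the first cell
of one of two coded lists to an output stack.  `run_prog` is the generic correctness theorem; the
typed consequences (`mergeBy`, `filterBy`, `walk`, `gatherGaps`, `splitLengths`, `chunks`) are in
`Merge.lean`.
-/

set_option autoImplicit false

namespace Crest.Agent.X326.Mg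

open Crest.Agent.Lib.PT Function

/-- tokens of the self-delimiting code -/
def tok : Option Bool → List Bool
  | some b => [true, b]
  | none => [false]

/-- the tokens of one cell -/
def toks (x : List Bool) : List (Option Bool) := x.map some ++ [none]

/-- one cell of a coded list -/
def cell (x : List Bool) : List Bool := x.flatMap (fun b => [true, b]) ++ [false]

theorem pair_eq_cell (x y : List Bool) : pair x y = cell x ++ y := by simp [pair, cell]


theorem cell_cons (b : Bool) (x : List Bool) : cell (b :: x) = true :: b :: cell x := by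
  simp [cell]

theorem toks_nil : toks [] = [none] := rfl

theorem toks_cons (b : Bool) (x : List Bool) : toks (b :: x) = some b :: toks x := by
  simp [toks]

theorem length_cell (x : List Bool) : (cell x).length = 2 * x.length + 1 := by
  induction x with
  | nil => rfl
  | cons b x ih => rw [cell_cons]; simp [ih]; omega

theorem toks_flatMap_tok (x : List Bool) : (toks x).flatMap tok = cell x := by
  induction x with
  | nil => rfl
  | cons b x ih => rw [toks_cons, cell_cons, List.flatMap_cons, ih]; rfl

/-- forget the framing -/
def und : Option Bool → List Bool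
  | some b => [b]
  | none => []

theorem toks_flatMap_und (x : List Bool) : (toks x).flatMap und = x := by
  induction x with
  | nil => rfl
  | cons b x ih => rw [toks_cons, List.flatMap_cons, ih]; rfl

/-- frame every bit of a token -/
def dbl (o : Option Bool) : List Bool := (tok o).flatMap (fun b => [true, b])

theorem toks_flatMap_dbl (x : List Bool) :
    (toks x).flatMap dbl = (cell x).flatMap (fun b => [true, b]) := by
  rw [← toks_flatMap_tok, List.flatMap_assoc]; rfl

/-- write nothing -/
def non : Option Bool → List Bool := fun _ => []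

theorem flatMap_non (l : List (Option Bool)) : l.flatMap non = [] := by
  induction l with
  | nil => rfl
  | cons o l ih => rw [List.flatMap_cons, ih]; rfl

theorem enc_cons_cell {α : Type} [PTCode α] (a : α) (l : List α) :
    enc (a :: l) = cell (enc a) ++ enc l := by rw [enc_cons, pair_eq_cell]

theorem enc_append {α : Type} [PTCode α] (l l' : List α) : enc (l ++ l') = enc l ++ enc l' := by
  induction l with
  | nil => rfl
  | cons a l ih => rw [List.cons_append, enc_cons_cell, enc_cons_cell, ih, List.append_assoc]

theorem enc_eq_toks {γ : Type} [PTCode γ] (L : List γ) :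
    enc L = (L.flatMap (fun c => toks (enc c))).flatMap tok := by
  induction L with
  | nil => rfl
  | cons c L ih =>
    rw [enc_cons_cell, List.flatMap_cons, List.flatMap_append, toks_flatMap_tok, ← ih]

theorem length_le_flatMap_tok (l : List (Option Bool)) : l.length ≤ (l.flatMap tok).length := by
  induction l with
  | nil => simp
  | cons o l ih => cases o <;> simp [tok] at ih ⊢ <;> omega

/-! ### moving one cell -/

/-- update the stacks `a`, `3`, `4` -/
def U (S : Store) (a : ℕ) (r p q : List Bool) : Store := update (update (update S a r) 3 p) 4 q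

section cellmove

variable {a : ℕ}

theorem U_self (h3 : a ≠ 3) (h4 : a ≠ 4) (S : Store) (r p q : List Bool) : U S a r p q a = r := by
  simp [U, h3, h4]

theorem U_three (S : Store) (r p q : List Bool) : U S a r p q 3 = p := by simp [U]

theorem U_four (S : Store) (r p q : List Bool) : U S a r p q 4 = q := by simp [U]

theorem U_five (h5 : a ≠ 5) (S : Store) (r p q : List Bool) : U S a r p q 5 = S 5 := by
  simp [U, h5.symm]

theorem U_U (S : Store) (r p q r' p' q' : List Bool) :
    U (U S a r p q) a r' p' q' = U S a r' p' q' := by
  funext j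
  by_cases h4 : j = 4
  · subst h4; simp [U]
  · by_cases h3 : j = 3
    · subst h3; simp [U]
    · by_cases ha : j = a
      · subst ha; simp [U, h3, h4]
      · simp [U, h3, h4, ha]

/-- write the images of a token -/
def emit (h g : Option Bool → List Bool) (o : Option Bool) : Cmd :=
  .seq (pushAll 3 (h o).reverse) (pushAll 4 (g o).reverse)

theorem run_emit (h g : Option Bool → List Bool) (o : Option Bool) (S : Store) (r : List Bool)
    (hb : (h o).length + (g o).length ≤ 4) :
    Run (emit h g o) (update S a r) (U S a r ((h o).reverse ++ update S a r 3)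
      ((g o).reverse ++ update S a r 4)) 6 := by
  refine ((run_pushAll 3 _ _).seq (run_pushAll 4 _ _)).of_eq ?_ ?_
  · simp [U]
  · simp; omega

/-- body of the cell loop -/
def cellBody (a : ℕ) (h g : Option Bool → List Bool) : Cmd :=
  .ite a (.pop 5)
    (.seq (.pop a) (.ite a .skip (.seq (.pop a) (emit h g (some true)))
      (.seq (.pop a) (emit h g (some false)))))
    (.seq (.pop a) (.seq (emit h g none) (.pop 5)))

/-- consume one cell of stack `a`, writing images of its tokens on the stacks `3` and `4` -/
def cellCmd (a : ℕ) (h g : Option Bool → List Bool) : Cmd :=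
  .seq (.push 5 true) (.loop 5 (cellBody a h g))

theorem run_cellLoop (h3 : a ≠ 3) (h4 : a ≠ 4) (h5 : a ≠ 5) (h g : Option Bool → List Bool)
    (hb : ∀ o, (h o).length + (g o).length ≤ 4) (x r : List Bool) (S : Store)
    (hS : S a = cell x ++ r) (hf : S 5 = [true]) :
    Run (.loop 5 (cellBody a h g)) S
      (update (U S a r (((toks x).flatMap h).reverse ++ S 3)
        (((toks x).flatMap g).reverse ++ S 4)) 5 []) (11 * x.length + 11) := by
  induction x generalizing S with
  | nil =>
    have hS' : S a = false :: r := hS
    have e1 : Run (.pop a) S (update S a r) 1 := (run_pop a S).of_eq (by rw [hS']; rfl) le_rfl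
    have e2 := run_emit (a := a) h g none S r (hb none)
    rw [update_of_ne h3.symm, update_of_ne h4.symm] at e2
    have e3 := run_pop 5 (U S a r ((h none).reverse ++ S 3) ((g none).reverse ++ S 4))
    rw [U_five h5, hf, List.tail_cons] at e3
    have hbody : Run (cellBody a h g) S _ _ := Run.ite_false hS' (e1.seq (e2.seq e3))
    have hend : Run (.loop 5 (cellBody a h g))
        (update (U S a r ((h none).reverse ++ S 3) ((g none).reverse ++ S 4)) 5 []) _ 1 :=
      Run.loop_nil (by simp)
    refine (Run.loop_cons (by rw [hf]; simp) hbody hend).of_eq ?_ (by simp)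
    simp [toks_nil]
  | cons b x ih =>
    have hS' : S a = true :: b :: (cell x ++ r) := by rw [hS, cell_cons]; rfl
    have e1 : Run (.pop a) S (update S a (b :: (cell x ++ r))) 1 :=
      (run_pop a S).of_eq (by rw [hS']; rfl) le_rfl
    have e2 : Run (.pop a) (update S a (b :: (cell x ++ r))) (update S a (cell x ++ r)) 1 :=
      (run_pop a _).of_eq (by simp) le_rfl
    have e3 := run_emit (a := a) h g (some b) S (cell x ++ r) (hb _)
    rw [update_of_ne h3.symm, update_of_ne h4.symm] at e3
    have e4 : Run (.ite a .skip (.seq (.pop a) (emit h g (some true)))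
        (.seq (.pop a) (emit h g (some false)))) (update S a (b :: (cell x ++ r)))
        (U S a (cell x ++ r) ((h (some b)).reverse ++ S 3) ((g (some b)).reverse ++ S 4))
        (1 + (1 + 6)) := by
      cases b
      · exact Run.ite_false (l := cell x ++ r) (by simp) (e2.seq e3)
      · exact Run.ite_true (l := cell x ++ r) (by simp) (e2.seq e3)
    have hbody : Run (cellBody a h g) S _ _ := Run.ite_true hS' (e1.seq e4)
    have hrec := ih (U S a (cell x ++ r) ((h (some b)).reverse ++ S 3)
      ((g (some b)).reverse ++ S 4)) (U_self h3 h4 _ _ _ _) (by rw [U_five h5, hf])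
    refine (Run.loop_cons (by rw [hf]; simp) hbody hrec).of_eq ?_ ?_
    · rw [U_U, U_three, U_four, toks_cons]
      simp
    · simp only [List.length_cons]; omega

theorem run_cellCmd (h3 : a ≠ 3) (h4 : a ≠ 4) (h5 : a ≠ 5) (h g : Option Bool → List Bool)
    (hb : ∀ o, (h o).length + (g o).length ≤ 4) (x r : List Bool) (S : Store)
    (hS : S a = cell x ++ r) (hf : S 5 = []) :
    Run (cellCmd a h g) S
      (U S a r (((toks x).flatMap h).reverse ++ S 3) (((toks x).flatMap g).reverse ++ S 4))
      (11 * x.length + 12) := by
  have e1 := run_push 5 true S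
  rw [hf] at e1
  have e2 := run_cellLoop h3 h4 h5 h g hb x r (update S 5 [true])
    (by rw [update_of_ne h5]; exact hS) (by simp)
  refine (e1.seq e2).of_eq ?_ (by omega)
  funext j
  by_cases hj5 : j = 5
  · subst hj5; rw [update_self, U_five h5, hf]
  · by_cases hj4 : j = 4
    · subst hj4; simp [U]
    · by_cases hj3 : j = 3
      · subst hj3; simp [U]
      · by_cases ha : j = a
        · subst ha; simp [U, hj3, hj4, hj5]
        · simp [U, hj3, hj4, hj5, ha]

theorem run_cellCmd_nil (h5 : a ≠ 5) (h g : Option Bool → List Bool) (S : Store)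
    (hS : S a = []) (hf : S 5 = []) : Run (cellCmd a h g) S S 5 := by
  have e1 := run_push 5 true S
  rw [hf] at e1
  have e2 : Run (.pop 5) (update S 5 [true]) S 1 := by
    refine (run_pop 5 _).of_eq ?_ le_rfl
    simp [← hf]
  have hbody : Run (cellBody a h g) (update S 5 [true]) S _ :=
    Run.ite_nil (by rw [update_of_ne h5]; exact hS) e2
  have e3 : Run (.loop 5 (cellBody a h g)) (update S 5 [true]) S _ :=
    Run.loop_cons (by simp) hbody (Run.loop_nil hf)
  exact (e1.seq e3).mono (by omega)

/-- the tokens of the first cell of a list (nothing for the empty list) -/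
def hdToks {α : Type} [PTCode α] : List α → List (Option Bool)
  | [] => []
  | x :: _ => toks (enc x)

theorem hdToks_tok {α : Type} [PTCode α] (l : List α) :
    (hdToks l).flatMap tok = enc (l.take 1) := by
  cases l with
  | nil => rfl
  | cons x l => simp [hdToks, toks_flatMap_tok, pair_eq_cell]

theorem hdToks_dbl {α : Type} [PTCode α] (l : List α) :
    (hdToks l).flatMap dbl = (enc (l.take 1)).flatMap (fun b => [true, b]) := by
  cases l with
  | nil => rfl
  | cons x l => simp [hdToks, toks_flatMap_dbl, pair_eq_cell]

theorem sz_take_one_add_tail {α : Type} [PTCode α] (l : List α) :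
    sz (l.take 1) + sz l.tail = sz l := by
  cases l <;> simp

theorem enc_take_one_tail {α : Type} [PTCode α] (l : List α) :
    enc (l.take 1) ++ enc l.tail = enc l := by
  cases l <;> simp [pair_eq_cell]

/-- typed form: consume the first cell of the coded list on stack `a` -/
theorem run_cellList {α : Type} [PTCode α] (h3 : a ≠ 3) (h4 : a ≠ 4) (h5 : a ≠ 5)
    (h g : Option Bool → List Bool) (hb : ∀ o, (h o).length + (g o).length ≤ 4)
    (l : List α) (S : Store) (hS : S a = enc l) (hf : S 5 = []) :
    Run (cellCmd a h g) S
      (U S a (enc l.tail) (((hdToks l).flatMap h).reverse ++ S 3)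
        (((hdToks l).flatMap g).reverse ++ S 4)) (6 * sz (l.take 1) + 6) := by
  cases l with
  | nil =>
    refine (run_cellCmd_nil h5 h g S hS hf).of_eq ?_ (by simp)
    have hS' : S a = [] := hS
    simp only [U, hdToks, List.flatMap_nil, List.reverse_nil, List.nil_append, List.tail_nil,
      enc_nil]
    rw [← hS', update_eq_self, update_eq_self, update_eq_self]
  | cons x l =>
    refine (run_cellCmd h3 h4 h5 h g hb (enc x) (enc l) S (by rw [hS, enc_cons_cell]) hf).of_eq
      rfl ?_
    simp [sz]; omega

end cellmove

/-! ### stores with six stacks -/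

/-- explicit small stores -/
def st6 (a b c d e f : List Bool) : Store := fun k =>
  match k with
  | 0 => a
  | 1 => b
  | 2 => c
  | 3 => d
  | 4 => e
  | 5 => f
  | _ + 6 => []

theorem init_eq_st6 (z : List Bool) : init z = st6 z [] [] [] [] [] := by
  funext j; rcases j with _ | _ | _ | _ | _ | _ | j <;> simp [st6, init]

section st6

variable (a b c d e f v : List Bool)

@[simp] theorem st6_0 : st6 a b c d e f 0 = a := rfl
@[simp] theorem st6_1 : st6 a b c d e f 1 = b := rfl
@[simp] theorem st6_2 : st6 a b c d e f 2 = c := rfl
@[simp] theorem st6_3 : st6 a b c d e f 3 = d := rfl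
@[simp] theorem st6_4 : st6 a b c d e f 4 = e := rfl
@[simp] theorem st6_5 : st6 a b c d e f 5 = f := rfl

@[simp] theorem upd6_0 : update (st6 a b c d e f) 0 v = st6 v b c d e f := by
  funext j; rcases j with _ | _ | _ | _ | _ | _ | j <;> simp [st6]
@[simp] theorem upd6_1 : update (st6 a b c d e f) 1 v = st6 a v c d e f := by
  funext j; rcases j with _ | _ | _ | _ | _ | _ | j <;> simp [st6]
@[simp] theorem upd6_2 : update (st6 a b c d e f) 2 v = st6 a b v d e f := by
  funext j; rcases j with _ | _ | _ | _ | _ | _ | j <;> simp [st6]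
@[simp] theorem upd6_3 : update (st6 a b c d e f) 3 v = st6 a b c v e f := by
  funext j; rcases j with _ | _ | _ | _ | _ | _ | j <;> simp [st6]
@[simp] theorem upd6_4 : update (st6 a b c d e f) 4 v = st6 a b c d v f := by
  funext j; rcases j with _ | _ | _ | _ | _ | _ | j <;> simp [st6]
@[simp] theorem upd6_5 : update (st6 a b c d e f) 5 v = st6 a b c d e v := by
  funext j; rcases j with _ | _ | _ | _ | _ | _ | j <;> simp [st6]

end st6

/-! ### the control loop -/

/-- read tokens from stack `0` and execute the corresponding command -/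
def ctl (c : Option Bool → Cmd) : Cmd :=
  .loop 0 (.ite 0 .skip
    (.seq (.pop 0) (.ite 0 .skip (.seq (.pop 0) (c (some true))) (.seq (.pop 0) (c (some false)))))
    (.seq (.pop 0) (c none)))

theorem run_ctl {σ : Type} (St : List Bool → σ → Store) (h0 : ∀ r s, St r s 0 = r)
    (hu : ∀ r r' s, update (St r s) 0 r' = St r' s) (c : Option Bool → Cmd)
    (stp : σ → Option Bool → σ) (Φ : σ → ℤ) (K : ℕ)
    (hc : ∀ o r s, ∃ n : ℕ, Run (c o) (St r s) (St r (stp s o)) n ∧ n + Φ (stp s o) ≤ Φ s + K)
    (l : List (Option Bool)) (s : σ) :
    ∃ n : ℕ, Run (ctl c) (St (l.flatMap tok) s) (St [] (l.foldl stp s)) n ∧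
      n + Φ (l.foldl stp s) ≤ Φ s + (K + 5) * l.length + 1 := by
  induction l generalizing s with
  | nil => exact ⟨1, Run.loop_nil (h0 _ _), by simp; omega⟩
  | cons o l ih =>
    obtain ⟨n, hn, hn'⟩ := hc o (l.flatMap tok) s
    obtain ⟨m, hm, hm'⟩ := ih (stp s o)
    have hpop : ∀ (b : Bool) (r : List Bool), Run (.pop 0) (St (b :: r) s) (St r s) 1 :=
      fun b r => (run_pop 0 _).of_eq (by rw [h0, List.tail_cons, hu]) le_rfl
    have hbody : Run (.ite 0 .skip
        (.seq (.pop 0) (.ite 0 .skip (.seq (.pop 0) (c (some true)))
          (.seq (.pop 0) (c (some false))))) (.seq (.pop 0) (c none)))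
        (St ((o :: l).flatMap tok) s) (St (l.flatMap tok) (stp s o)) (n + 4) := by
      rcases o with _ | b
      · have e : (none :: l).flatMap tok = false :: l.flatMap tok := rfl
        rw [e]
        exact (Run.ite_false (h0 _ _) ((hpop _ _).seq hn)).mono (by omega)
      · have e : (some b :: l).flatMap tok = true :: b :: l.flatMap tok := rfl
        rw [e]
        cases b
        · exact (Run.ite_true (h0 _ _) ((hpop _ _).seq
            (Run.ite_false (h0 _ _) ((hpop _ _).seq hn)))).mono (by omega)
        · exact (Run.ite_true (h0 _ _) ((hpop _ _).seq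
            (Run.ite_true (h0 _ _) ((hpop _ _).seq hn)))).mono (by omega)
    have hne : St ((o :: l).flatMap tok) s 0 ≠ [] := by
      rw [h0]; cases o <;> simp [tok]
    refine ⟨1 + (n + 4) + m, Run.loop_cons hne hbody hm, ?_⟩
    simp only [List.foldl_cons, List.length_cons]
    push_cast at hm' hn' ⊢
    nlinarith

/-! ### actions on two lists and an output -/

/-- the elementary actions -/
inductive Act : Type
  | skip | take1 | take2 | drop1 | copy1 | take1d | take2d | close

section act

variable {α β : Type} [PTCode α] [PTCode β]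

/-- the effect of an action on (first list, second list, output so far) -/
def Act.sem : Act → List α × List β × List Bool → List α × List β × List Bool
  | .skip, s => s
  | .take1, s => (s.1.tail, s.2.1, s.2.2 ++ enc (s.1.take 1))
  | .take2, s => (s.1, s.2.1.tail, s.2.2 ++ enc (s.2.1.take 1))
  | .drop1, s => (s.1.tail, s.2.1, s.2.2)
  | .copy1, s => (s.1, s.2.1, s.2.2 ++ enc (s.1.take 1))
  | .take1d, s => (s.1.tail, s.2.1, s.2.2 ++ (enc (s.1.take 1)).flatMap (fun b => [true, b]))
  | .take2d, s => (s.1, s.2.1.tail, s.2.2 ++ (enc (s.2.1.take 1)).flatMap (fun b => [true, b]))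
  | .close, s => (s.1, s.2.1, s.2.2 ++ [false])

/-- the program of an action -/
def Act.cmd : Act → Cmd
  | .skip => .skip
  | .take1 => cellCmd 1 tok non
  | .take2 => cellCmd 2 tok non
  | .drop1 => cellCmd 1 non non
  | .copy1 => .seq (cellCmd 1 tok tok) (mv 4 1)
  | .take1d => cellCmd 1 dbl non
  | .take2d => cellCmd 2 dbl non
  | .close => .push 3 false

/-- the store of a state -/
def St (r : List Bool) (s : List α × List β × List Bool) : Store :=
  st6 r (enc s.1) (enc s.2.1) s.2.2.reverse [] []

/-- the potential -/
def Pot (s : List α × List β × List Bool) : ℤ :=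
  10 * ((sz s.1 : ℤ) + sz s.2.1 - s.2.2.length)

theorem hb_tok_non : ∀ o, (tok o).length + (non o).length ≤ 4 := by
  rintro (_ | _) <;> simp [tok, non]

theorem hb_non_non : ∀ o, (non o).length + (non o).length ≤ 4 := by
  rintro (_ | _) <;> simp [non]

theorem hb_tok_tok : ∀ o, (tok o).length + (tok o).length ≤ 4 := by
  rintro (_ | _) <;> simp [tok]

theorem hb_dbl_non : ∀ o, (dbl o).length + (non o).length ≤ 4 := by
  rintro (_ | _) <;> simp [tok, dbl, non]

theorem hb_und_non : ∀ o, (und o).length + (non o).length ≤ 4 := by
  rintro (_ | _) <;> simp [und, non]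

theorem run_act (A : Act) (r : List Bool) (s : List α × List β × List Bool) :
    ∃ n : ℕ, Run A.cmd (St r s) (St r (A.sem s)) n ∧ n + Pot (A.sem s) ≤ Pot s + (7 : ℕ) := by
  obtain ⟨xs, ys, o⟩ := s
  have hx := sz_take_one_add_tail xs
  have hy := sz_take_one_add_tail ys
  have ex : (enc (xs.take 1)).length = sz (xs.take 1) := rfl
  have ey : (enc (ys.take 1)).length = sz (ys.take 1) := rfl
  cases A with
  | skip => exact ⟨1, run_skip _, by simp only [Act.sem]; omega⟩
  | take1 =>
    refine ⟨_, (run_cellList (a := 1) (by decide) (by decide) (by decide) tok non hb_tok_non xs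
      (St r (xs, ys, o)) rfl rfl).of_eq ?_ le_rfl, ?_⟩
    · simp [U, St, Act.sem, hdToks_tok, flatMap_non]
    · simp only [Act.sem, Pot, List.length_append, ex]; omega
  | take2 =>
    refine ⟨_, (run_cellList (a := 2) (by decide) (by decide) (by decide) tok non hb_tok_non ys
      (St r (xs, ys, o)) rfl rfl).of_eq ?_ le_rfl, ?_⟩
    · simp [U, St, Act.sem, hdToks_tok, flatMap_non]
    · simp only [Act.sem, Pot, List.length_append, ey]; omega
  | drop1 =>
    refine ⟨_, (run_cellList (a := 1) (by decide) (by decide) (by decide) non non hb_non_non xs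
      (St r (xs, ys, o)) rfl rfl).of_eq ?_ le_rfl, ?_⟩
    · simp [U, St, Act.sem, flatMap_non]
    · simp only [Act.sem, Pot]; omega
  | copy1 =>
    have e1 : Run (cellCmd 1 tok tok) (St r (xs, ys, o))
        (st6 r (enc xs.tail) (enc ys) ((enc (xs.take 1)).reverse ++ o.reverse)
          (enc (xs.take 1)).reverse []) (6 * sz (xs.take 1) + 6) := by
      refine (run_cellList (a := 1) (by decide) (by decide) (by decide) tok tok hb_tok_tok xs
        (St r (xs, ys, o)) rfl rfl).of_eq ?_ le_rfl
      simp [U, St, hdToks_tok]
    refine ⟨_, (e1.seq (run_mv (by decide) _)).of_eq ?_ le_rfl, ?_⟩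
    · simp only [st6_4, st6_1, List.reverse_reverse, enc_take_one_tail, upd6_1, upd6_4, St,
        Act.sem, List.reverse_append]
    · simp only [Act.sem, Pot, List.length_append, ex, st6_4, List.length_reverse]; omega
  | take1d =>
    refine ⟨_, (run_cellList (a := 1) (by decide) (by decide) (by decide) dbl non hb_dbl_non xs
      (St r (xs, ys, o)) rfl rfl).of_eq ?_ le_rfl, ?_⟩
    · simp only [U, St, Act.sem, hdToks_dbl, flatMap_non, st6_3, st6_4, upd6_1, upd6_3, upd6_4,
        List.reverse_append, List.reverse_nil, List.append_nil]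
    · simp only [Act.sem, Pot, List.length_append]; omega
  | take2d =>
    refine ⟨_, (run_cellList (a := 2) (by decide) (by decide) (by decide) dbl non hb_dbl_non ys
      (St r (xs, ys, o)) rfl rfl).of_eq ?_ le_rfl, ?_⟩
    · simp only [U, St, Act.sem, hdToks_dbl, flatMap_non, st6_3, st6_4, upd6_2, upd6_3, upd6_4,
        List.reverse_append, List.reverse_nil, List.append_nil]
    · simp only [Act.sem, Pot, List.length_append]; omega
  | close =>
    refine ⟨1, (run_push 3 false _).of_eq ?_ le_rfl, ?_⟩
    · simp [St, Act.sem]
    · simp only [Act.sem, Pot, List.length_append]; omega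

theorem run_ctl_act (A : Option Bool → Act) (l : List (Option Bool))
    (s : List α × List β × List Bool) :
    ∃ n : ℕ, Run (ctl (fun o => (A o).cmd)) (St (l.flatMap tok) s)
      (St [] (l.foldl (fun s o => (A o).sem s) s)) n ∧
      n + Pot (l.foldl (fun s o => (A o).sem s) s) ≤ Pot s + 12 * l.length + 1 := by
  have := run_ctl (σ := List α × List β × List Bool) St (fun _ _ => rfl)
    (fun _ _ _ => by simp [St]) (fun o => (A o).cmd) (fun s o => (A o).sem s) Pot 7
    (fun o r s => run_act (A o) r s) l s
  simpa using this

theorem sem_sz_le (A : Act) (s : List α × List β × List Bool) :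
    sz (A.sem s).1 ≤ sz s.1 ∧ sz (A.sem s).2.1 ≤ sz s.2.1 := by
  have := sz_tail_le s.1
  have := sz_tail_le s.2.1
  cases A <;> simp only [Act.sem] <;> omega

theorem foldl_sem_sz_le (A : Option Bool → Act) (l : List (Option Bool))
    (s : List α × List β × List Bool) :
    sz (l.foldl (fun s o => (A o).sem s) s).1 ≤ sz s.1 ∧
      sz (l.foldl (fun s o => (A o).sem s) s).2.1 ≤ sz s.2.1 := by
  induction l generalizing s with
  | nil => simp
  | cons o l ih =>
    have h1 := ih ((A o).sem s)
    have h2 := sem_sz_le (A o) s
    simp only [List.foldl_cons]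
    omega

/-- unpack the first component of stack `0` to stack `k` -/
def unpack (k : ℕ) : Cmd := .seq (cellCmd 0 und non) (mv 3 k)

theorem run_unpack1 (x r : List Bool) :
    Run (unpack 1) (st6 (pair x r) [] [] [] [] []) (st6 r x [] [] [] []) (15 * x.length + 13) := by
  have e1 := run_cellCmd (a := 0) (by decide) (by decide) (by decide) und non hb_und_non x r
    (st6 (pair x r) [] [] [] [] []) (pair_eq_cell x r) rfl
  refine (e1.seq (run_mv (by decide) _)).of_eq ?_ ?_
  · simp [U, toks_flatMap_und, flatMap_non]
  · simp [U, toks_flatMap_und]; omega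

theorem run_unpack2 (x r y : List Bool) :
    Run (unpack 2) (st6 (pair x r) y [] [] [] []) (st6 r y x [] [] []) (15 * x.length + 13) := by
  have e1 := run_cellCmd (a := 0) (by decide) (by decide) (by decide) und non hb_und_non x r
    (st6 (pair x r) y [] [] [] []) (pair_eq_cell x r) rfl
  refine (e1.seq (run_mv (by decide) _)).of_eq ?_ ?_
  · simp [U, toks_flatMap_und, flatMap_non]
  · simp [U, toks_flatMap_und]; omega

/-- clean up and move the output to stack `0` -/
def finish : Cmd := .seq (clear 1) (.seq (clear 2) (mv 3 0))

theorem run_finish (x y o : List Bool) :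
    Run finish (st6 [] x y o.reverse [] []) (init o)
      (2 * x.length + 2 * y.length + 4 * o.length + 3) := by
  refine ((run_clear 1 _).seq ((run_clear 2 _).seq (run_mv (by decide) _))).of_eq ?_ ?_
  · simp [init_eq_st6]
  · simp; omega

/-- the whole transducer: input `(xs, ys, control)` -/
def prog (A : Option Bool → Act) : Cmd :=
  .seq (unpack 1) (.seq (unpack 2) (.seq (ctl (fun o => (A o).cmd)) finish))

/-- the output of the transducer -/
def out (A : Option Bool → Act) (l : List (Option Bool)) (xs : List α) (ys : List β) :
    List Bool := (l.foldl (fun s o => (A o).sem s) (xs, ys, [])).2.2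

theorem run_prog (A : Option Bool → Act) (l : List (Option Bool)) (xs : List α) (ys : List β) :
    Run (prog A) (init (pair (enc xs) (pair (enc ys) (l.flatMap tok)))) (init (out A l xs ys))
      (30 * (sz xs + sz ys + l.length + (out A l xs ys).length + 1)) := by
  obtain ⟨n, hn, hn'⟩ := run_ctl_act A l (xs, ys, ([] : List Bool))
  have hle := foldl_sem_sz_le A l (xs, ys, ([] : List Bool))
  have e1 := run_unpack1 (enc xs) (pair (enc ys) (l.flatMap tok))
  have e2 := run_unpack2 (enc ys) (l.flatMap tok) (enc xs)
  have e4 := run_finish (enc (l.foldl (fun s o => (A o).sem s) (xs, ys, ([] : List Bool))).1)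
    (enc (l.foldl (fun s o => (A o).sem s) (xs, ys, ([] : List Bool))).2.1) (out A l xs ys)
  rw [init_eq_st6]
  refine (e1.seq (e2.seq (Run.seq hn e4))).mono ?_
  simp only [Pot, sz, out] at hn' hle ⊢
  simp only [List.length_nil] at hn'
  omega

end act

end Crest.Agent.X326.Mg
private theorem rz_2ad6116ac2 : type_of% @_root_.Crest.Agent.X326.Mg.Act.sem.eq_1 := @_root_.Crest.Agent.X326.Mg.Act.sem.eq_1 -- L370
private theorem rz_9e69b453c2 : type_of% @_root_.Crest.Agent.X326.Mg.hdToks.eq_1 := @_root_.Crest.Agent.X326.Mg.hdToks.eq_1 -- L228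
private theorem rz_9d99f13ea6 : type_of% @_root_.Crest.Agent.X326.Mg.st6.eq_1 := @_root_.Crest.Agent.X326.Mg.st6.eq_1 -- L276
private theorem rz_d1b3b738b2 : type_of% @_root_.Crest.Agent.X326.Mg.tok.eq_1 := @_root_.Crest.Agent.X326.Mg.tok.eq_1 -- L19
private theorem rz_1b5359da47 : type_of% @_root_.Crest.Agent.X326.Mg.und.eq_1 := @_root_.Crest.Agent.X326.Mg.und.eq_1 -- L52
end

-- ▼ part X326/TC/Merge

/-!
# Row 326, machine layer: merge, filter, monotone gather, chunks

* `mergeBy bs xs ys` : flag `true` takes the next element of `xs`, flag `false` the next of `ys`.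
* `filterBy bs xs`   : keep the elements whose flag is `true`.
* `walk bs xs`       : flag `true` emits the current element (and keeps it), `false` drops it.
* `gatherGaps gs xs` : for each gap `g`: drop `g` elements, emit the current one (and keep it).
* `List.splitLengths ns xs` with the lengths in unary.
* `chunks n xs`      : consecutive blocks of `n` elements (`n` in unary).

All are linear in the input size (`walk`, `gatherGaps`: input plus output size).
Index-level specifications are in `MergeSpec.lean`.
-/

set_option autoImplicit false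

namespace Crest.Agent.X326

open Crest.Agent.Lib.PT Function

section defs

variable {α : Type}

/-- merge two lists along a list of flags (`true`: first list); an exhausted list yields nothing -/
def mergeBy : List Bool → List α → List α → List α
  | [], _, _ => []
  | true :: bs, xs, ys => xs.take 1 ++ mergeBy bs xs.tail ys
  | false :: bs, xs, ys => ys.take 1 ++ mergeBy bs xs ys.tail

/-- keep the elements whose flag is `true` -/
def filterBy : List Bool → List α → List α
  | [], _ => []
  | true :: bs, xs => xs.take 1 ++ filterBy bs xs.tail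
  | false :: bs, xs => filterBy bs xs.tail

/-- `true`: emit the current element, `false`: advance -/
def walk : List Bool → List α → List α
  | [], _ => []
  | true :: bs, xs => xs.take 1 ++ walk bs xs
  | false :: bs, xs => walk bs xs.tail


/-- consecutive blocks of `n` elements (the last one may be shorter; nothing for `n = 0`) -/
def chunks (n : ℕ) (l : List α) : List (List α) :=
  if _h : l = [] ∨ n = 0 then [] else l.take n :: chunks n (l.drop n)
termination_by l.length
decreasing_by
  have h1 : l ≠ [] := fun e => _h (Or.inl e)
  have h2 : 0 < l.length := List.length_pos_of_ne_nil h1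
  have h3 : n ≠ 0 := fun e => _h (Or.inr e)
  simp only [List.length_drop]
  omega

@[simp] theorem chunks_nil (n : ℕ) : chunks n ([] : List α) = [] := by
  rw [chunks]; simp

@[simp] theorem chunks_zero (l : List α) : chunks 0 l = [] := by
  rw [chunks]; simp

theorem chunks_of_ne {n : ℕ} {l : List α} (hn : n ≠ 0) (hl : l ≠ []) :
    chunks n l = l.take n :: chunks n (l.drop n) := by
  rw [chunks, dif_neg (by simp [hn, hl])]

end defs

/-! ### sizes -/

section sizes

variable {α : Type} [PTCode α]

theorem sz_mergeBy_le (bs : List Bool) (xs ys : List α) :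
    sz (mergeBy bs xs ys) ≤ sz xs + sz ys := by
  induction bs generalizing xs ys with
  | nil => simp [mergeBy]
  | cons b bs ih =>
    have h1 := Mg.sz_take_one_add_tail xs
    have h2 := Mg.sz_take_one_add_tail ys
    cases b
    · have := ih xs ys.tail
      rw [mergeBy, sz_append]; omega
    · have := ih xs.tail ys
      rw [mergeBy, sz_append]; omega

theorem sz_filterBy_le (bs : List Bool) (xs : List α) : sz (filterBy bs xs) ≤ sz xs := by
  induction bs generalizing xs with
  | nil => simp [filterBy]
  | cons b bs ih =>
    have h1 := Mg.sz_take_one_add_tail xs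
    have := ih xs.tail
    cases b
    · rw [filterBy]; omega
    · rw [filterBy, sz_append]; omega

theorem sz_take_add_drop (n : ℕ) (l : List α) : sz (l.take n) + sz (l.drop n) = sz l := by
  rw [← sz_append, List.take_append_drop]


theorem sz_chunks_le (n : ℕ) (l : List α) : sz (chunks n l) ≤ 3 * sz l := by
  induction hl : l.length using Nat.strong_induction_on generalizing l with
  | _ k ih =>
    by_cases h : l = [] ∨ n = 0
    · rcases h with h | h <;> simp [h]
    · have h1 : l ≠ [] := fun e => h (Or.inl e)
      have h3 : n ≠ 0 := fun e => h (Or.inr e)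
      have h2 : 0 < l.length := List.length_pos_of_ne_nil h1
      have h4 := ih (l.drop n).length (by simp; omega) (l.drop n) rfl
      have h5 := sz_take_add_drop n l
      have h6 := length_le_sz (l.take n)
      have h7 : 0 < (l.take n).length := by simp; omega
      rw [chunks_of_ne h3 h1, sz_cons]
      omega

end sizes

/-! ### the transducer as a typed function -/

namespace Mg

variable {α β γ δ : Type} [PTCode α] [PTCode β] [PTCode γ] [PTCode δ]

/-- the control tokens of a coded list -/
def ctlToks (L : List γ) : List (Option Bool) := L.flatMap (fun c => toks (enc c))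

theorem tc_prog (A : Option Bool → Act) (F : List α × List β × List γ → δ)
    (hF : ∀ p, enc (F p) = out A (ctlToks p.2.2) p.1 p.2.1) :
    TC (fun _ => True) (fun p => sz (F p)) F := by
  refine TC.of_run (prog A) (n := fun p => 30 * (sz p.1 + sz p.2.1 + (ctlToks p.2.2).length +
    sz (F p) + 1)) (Bud.of_le 30 30 30 (fun p _ => ?_)) (fun p _ => ?_)
  · have h := length_le_flatMap_tok (ctlToks p.2.2)
    rw [ctlToks, ← enc_eq_toks] at h
    have h2 : sz p = 2 * sz p.1 + 1 + (2 * sz p.2.1 + 1 + sz p.2.2) := by simp
    have h3 : sz p.2.2 = (enc p.2.2).length := rfl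
    rw [ctlToks]
    omega
  · have h := run_prog A (ctlToks p.2.2) p.1 p.2.1
    rw [← hF] at h
    have e : enc p = pair (enc p.1) (pair (enc p.2.1) ((ctlToks p.2.2).flatMap tok)) := by
      rw [ctlToks, ← enc_eq_toks]; rfl
    rw [e]
    exact h

theorem ctlToks_cons (c : γ) (L : List γ) : ctlToks (c :: L) = toks (enc c) ++ ctlToks L := by
  simp [ctlToks]

theorem ctlToks_bool (b : Bool) (L : List Bool) :
    ctlToks (b :: L) = some b :: none :: ctlToks L := by
  rw [ctlToks_cons]; rfl


/-- control of `mergeBy` -/
def aMerge : Option Bool → Act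
  | some true => .take1
  | some false => .take2
  | none => .skip

theorem fold_merge (bs : List Bool) (xs ys : List α) (o : List Bool) :
    ((ctlToks bs).foldl (fun s o => (aMerge o).sem s) (xs, ys, o)).2.2 =
      o ++ enc (mergeBy bs xs ys) := by
  induction bs generalizing xs ys o with
  | nil => simp [ctlToks, mergeBy]
  | cons b bs ih =>
    rw [ctlToks_bool]
    cases b <;> simp [aMerge, Act.sem, mergeBy, enc_append] <;> exact (ih _ _ _).trans (by simp)

/-- control of `filterBy` -/
def aFilter : Option Bool → Act
  | some true => .take1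
  | some false => .drop1
  | none => .skip

theorem fold_filter (bs : List Bool) (xs : List α) (ys : List β) (o : List Bool) :
    ((ctlToks bs).foldl (fun s o => (aFilter o).sem s) (xs, ys, o)).2.2 =
      o ++ enc (filterBy bs xs) := by
  induction bs generalizing xs o with
  | nil => simp [ctlToks, filterBy]
  | cons b bs ih =>
    rw [ctlToks_bool]
    cases b <;> simp [aFilter, Act.sem, filterBy, enc_append] <;> exact (ih _ _).trans (by simp)

/-- control of `walk` -/
def aWalk : Option Bool → Act
  | some true => .copy1
  | some false => .drop1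
  | none => .skip

theorem fold_walk (bs : List Bool) (xs : List α) (ys : List β) (o : List Bool) :
    ((ctlToks bs).foldl (fun s o => (aWalk o).sem s) (xs, ys, o)).2.2 =
      o ++ enc (walk bs xs) := by
  induction bs generalizing xs o with
  | nil => simp [ctlToks, walk]
  | cons b bs ih =>
    rw [ctlToks_bool]
    cases b <;> simp [aWalk, Act.sem, walk, enc_append] <;> exact (ih _ _).trans (by simp)




/-- control of `splitLengths` and `chunks` -/
def aSplit : Option Bool → Act
  | some _ => .take1d
  | none => .close

theorem fold_split_rep (n : ℕ) (xs : List α) (ys : List β) (o : List Bool) :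
    (List.replicate n (some true)).foldl (fun s o => (aSplit o).sem s) (xs, ys, o) =
      (xs.drop n, ys, o ++ (enc (xs.take n)).flatMap (fun b => [true, b])) := by
  induction n generalizing xs o with
  | zero => simp
  | succ n ih =>
    rw [List.replicate_succ, List.foldl_cons]
    refine (ih xs.tail _).trans ?_
    cases xs with
    | nil => simp
    | cons x xs => simp [pair_eq_cell]

theorem fold_split_one (n : ℕ) (xs : List α) (ys : List β) (o : List Bool) :
    (List.replicate n (some true) ++ [none]).foldl (fun s o => (aSplit o).sem s) (xs, ys, o) =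
      (xs.drop n, ys, o ++ cell (enc (xs.take n))) := by
  rw [List.foldl_append, fold_split_rep]
  simp [aSplit, Act.sem, cell]


/-! ### the program for `chunks` -/

/-- one block -/
def chunkBody : Cmd := .seq (mv 2 4) (.seq (mv2 4 0 2) (ctl (fun o => (aSplit o).cmd)))

theorem run_chunkLoop {n : ℕ} (hn : n ≠ 0) (xs : List α) (o : List Bool) :
    Run (.loop 1 chunkBody) (St [] (xs, [Un.mk n], o)) (St [] (([] : List α), [Un.mk n],
      o ++ enc (chunks n xs))) (100 * sz xs + 30 * n + 41) := by
  induction hl : xs.length using Nat.strong_induction_on generalizing xs o with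
  | _ k ih =>
    by_cases hx : xs = []
    · subst hx
      refine (Run.loop_nil (k := 1) (c := chunkBody) rfl).of_eq (by simp) (by omega)
    · have hpos : 0 < xs.length := List.length_pos_of_ne_nil hx
      have ew : enc [Un.mk n] = (List.replicate n (some true) ++ [none]).flatMap tok := by
        rw [enc_eq_toks]; simp [toks]
      have lw : (enc [Un.mk n]).length = 2 * n + 1 := by simp
      have e1 : Run (mv 2 4) (St [] (xs, [Un.mk n], o))
          (st6 [] (enc xs) [] o.reverse (enc [Un.mk n]).reverse []) (4 * (2 * n + 1) + 1) := by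
        refine (run_mv (by decide) _).of_eq ?_ ?_
        · simp only [St, st6_2, st6_4, upd6_4, upd6_2, List.append_nil]
        · simp only [St, st6_2, lw]; exact le_rfl
      have e2 : Run (mv2 4 0 2) (st6 [] (enc xs) [] o.reverse (enc [Un.mk n]).reverse [])
          (St (enc [Un.mk n]) (xs, [Un.mk n], o)) (5 * (2 * n + 1) + 1) := by
        refine (run_mv2 (by decide) (by decide) (by decide) _).of_eq ?_ ?_
        · simp only [St, st6_0, st6_2, st6_4, upd6_4, upd6_2, upd6_0, List.append_nil,
            List.reverse_reverse]
        · simp only [st6_4, List.length_reverse, lw]; exact le_rfl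
      obtain ⟨m, hm, hm'⟩ := run_ctl_act aSplit (List.replicate n (some true) ++ [none])
        (xs, [Un.mk n], o)
      rw [← ew, fold_split_one] at hm
      rw [fold_split_one] at hm'
      have hrec := ih (xs.drop n).length (by simp; omega) (xs.drop n)
        (o ++ cell (enc (xs.take n))) rfl
      have hne : St [] (xs, [Un.mk n], o) 1 ≠ [] := by
        obtain ⟨x, xs', rfl⟩ := List.exists_cons_of_ne_nil hx
        simp [St, pair_ne_nil]
      have h5 := sz_take_add_drop n xs
      have h6 := length_le_sz (xs.take n)
      have h7 : (xs.take n).length = min n xs.length := by simp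
      have h8 : (cell (enc (xs.take n))).length = 2 * sz (xs.take n) + 1 := length_cell _
      simp only [Pot, List.length_append, h8, List.length_replicate, List.length_singleton] at hm'
      by_cases hd : xs.drop n = []
      · have hend : Run (.loop 1 chunkBody)
            (St [] (xs.drop n, [Un.mk n], o ++ cell (enc (xs.take n)))) _ 1 :=
          Run.loop_nil (by rw [hd]; rfl)
        refine (Run.loop_cons hne (e1.seq (e2.seq hm)) hend).of_eq ?_ ?_
        · rw [chunks_of_ne hn hx, hd, chunks_nil, enc_cons_cell]; simp
        · rw [hd] at h5 hm'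
          simp only [sz_nil] at h5 hm'
          omega
      · have h9 : n < xs.length := by
          by_contra hc
          exact hd (List.drop_eq_nil_of_le (by omega))
        refine (Run.loop_cons hne (e1.seq (e2.seq hm)) hrec).of_eq ?_ ?_
        · rw [chunks_of_ne hn hx, enc_cons_cell]; simp
        · omega

/-- the whole program for `chunks`: input `(n, xs)` -/
def chunkProg : Cmd :=
  .seq (cellCmd 0 tok non) (.seq (mv 3 2) (.seq (mv 0 3) (.seq (mv 3 1)
    (.seq (.ite 2 .skip (.loop 1 chunkBody) .skip) finish))))

theorem run_chunkProg (n : ℕ) (xs : List α) :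
    Run chunkProg (init (enc (Un.mk n, xs))) (init (enc (chunks n xs)))
      (130 * sz xs + 60 * n + 70) := by
  have ew : enc [Un.mk n] = cell (List.replicate n true) := by simp [pair_eq_cell]
  have lw : (enc [Un.mk n]).length = 2 * n + 1 := by simp
  have lx : (enc xs).length = sz xs := rfl
  have e1 : Run (cellCmd 0 tok non) (st6 (enc (Un.mk n, xs)) [] [] [] [] [])
      (st6 (enc xs) [] [] (enc [Un.mk n]).reverse [] []) (11 * n + 12) := by
    refine (run_cellCmd (a := 0) (by decide) (by decide) (by decide) tok non hb_tok_non
      (List.replicate n true) (enc xs) _ (pair_eq_cell _ _) rfl).of_eq ?_ (by simp)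
    rw [ew]
    simp [U, toks_flatMap_tok, flatMap_non]
  have e2 : Run (mv 3 2) (st6 (enc xs) [] [] (enc [Un.mk n]).reverse [] [])
      (st6 (enc xs) [] (enc [Un.mk n]) [] [] []) (4 * (2 * n + 1) + 1) := by
    refine (run_mv (by decide) _).of_eq ?_ ?_
    · simp only [st6_2, st6_3, upd6_2, upd6_3, List.append_nil, List.reverse_reverse]
    · simp only [st6_3, List.length_reverse, lw]; exact le_rfl
  have e3 : Run (mv 0 3) (st6 (enc xs) [] (enc [Un.mk n]) [] [] [])
      (st6 [] [] (enc [Un.mk n]) (enc xs).reverse [] []) (4 * sz xs + 1) := by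
    refine (run_mv (by decide) _).of_eq ?_ ?_
    · simp only [st6_0, st6_3, upd6_0, upd6_3, List.append_nil]
    · simp only [st6_0, lx]; exact le_rfl
  have e4 : Run (mv 3 1) (st6 [] [] (enc [Un.mk n]) (enc xs).reverse [] [])
      (St [] (xs, [Un.mk n], [])) (4 * sz xs + 1) := by
    refine (run_mv (by decide) _).of_eq ?_ ?_
    · simp only [St, st6_1, st6_3, upd6_1, upd6_3, List.append_nil, List.reverse_reverse,
        List.reverse_nil]
    · simp only [st6_3, List.length_reverse, lx]; exact le_rfl
  have hsz := sz_chunks_le n xs
  rw [init_eq_st6 (enc (Un.mk n, xs))]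
  rcases Nat.eq_zero_or_pos n with rfl | hn
  · have e5 : Run (.ite 2 .skip (.loop 1 chunkBody) .skip) (St [] (xs, [Un.mk 0], []))
        (St [] (xs, [Un.mk 0], [])) (1 + 1) := Run.ite_false (l := []) rfl (run_skip _)
    have e6 := run_finish (enc xs) (enc [Un.mk 0]) []
    refine (e1.seq (e2.seq (e3.seq (e4.seq (e5.seq e6))))).of_eq (by simp) ?_
    simp only [lx, lw, List.length_nil]
    omega
  · obtain ⟨n, rfl⟩ : ∃ m, n = m + 1 := ⟨n - 1, by omega⟩
    have e5 : Run (.ite 2 .skip (.loop 1 chunkBody) .skip) (St [] (xs, [Un.mk (n + 1)], []))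
        _ _ := Run.ite_true (l := true :: cell (List.replicate n true))
        (by simp only [St, st6_2, ew, List.replicate_succ, cell_cons])
        (run_chunkLoop (Nat.succ_ne_zero n) xs [])
    have e6 := run_finish [] (enc [Un.mk (n + 1)]) (enc (chunks (n + 1) xs))
    refine (e1.seq (e2.seq (e3.seq (e4.seq (e5.seq e6))))).mono ?_
    have lc : (enc (chunks (n + 1) xs)).length = sz (chunks (n + 1) xs) := rfl
    simp only [lc, lw, List.length_nil]
    omega

end Mg

/-! ### the typed statements -/

section tc

variable {ι α : Type} [PTCode ι] [PTCode α] {P : ι → Prop} {T : ι → ℕ}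

@[fun_prop]
theorem TC.mergeBy {b : ι → List Bool} {x y : ι → List α} (hb : TC P T b) (hx : TC P T x)
    (hy : TC P T y) : TC P T (fun a => mergeBy (b a) (x a) (y a)) := by
  have h := Mg.tc_prog Mg.aMerge
    (fun p : List α × List α × List Bool => X326.mergeBy p.2.2 p.1 p.2.1)
    (fun p => by simp [Mg.out, Mg.fold_merge])
  refine TC.comp (f := fun a => (x a, y a, b a)) h (hx.prodMk (hy.prodMk hb))
    (fun _ _ => trivial) ((hx.sz.add hy.sz).mono (fun a _ => sz_mergeBy_le _ _ _))

@[fun_prop]
theorem TC.filterBy {b : ι → List Bool} {x : ι → List α} (hb : TC P T b) (hx : TC P T x) :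
    TC P T (fun a => filterBy (b a) (x a)) := by
  have h := Mg.tc_prog Mg.aFilter
    (fun p : List α × List Unit × List Bool => X326.filterBy p.2.2 p.1)
    (fun p => by simp [Mg.out, Mg.fold_filter])
  refine TC.comp (f := fun a => (x a, ([] : List Unit), b a)) h
    (hx.prodMk ((TC.const _).prodMk hb)) (fun _ _ => trivial)
    (hx.sz.mono (fun a _ => sz_filterBy_le _ _))

/-- `walk` costs input plus output size -/
theorem TC.walk {b : ι → List Bool} {x : ι → List α} (hb : TC P T b) (hx : TC P T x)
    (ho : Bud P T (fun a => Lib.PT.sz (walk (b a) (x a)))) :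
    TC P T (fun a => walk (b a) (x a)) := by
  have h := Mg.tc_prog Mg.aWalk
    (fun p : List α × List Unit × List Bool => X326.walk p.2.2 p.1)
    (fun p => by simp [Mg.out, Mg.fold_walk])
  exact TC.comp (f := fun a => (x a, ([] : List Unit), b a)) h
    (hx.prodMk ((TC.const _).prodMk hb)) (fun _ _ => trivial) ho



theorem Lin.chunks : Lin (fun p : Un × List α => chunks p.1.val p.2) := by
  refine TC.of_run Mg.chunkProg (n := fun p => 130 * Lib.PT.sz p.2 + 60 * p.1.val + 70)
    (Bud.of_le 0 130 70 (fun p _ => ?_)) (fun p _ => Mg.run_chunkProg p.1.val p.2)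
  have : Lib.PT.sz p = 2 * p.1.val + 1 + Lib.PT.sz p.2 := by simp
  omega

/-- blocks of `n` elements, `n` in unary -/
theorem TC.chunks {n : ι → ℕ} {x : ι → List α} (hn : TC P T (fun a => Un.mk (n a)))
    (hx : TC P T x) : TC P T (fun a => chunks (n a) (x a)) :=
  TC.comp₂ (g := fun (u : Un) (l : List α) => X326.chunks u.val l) Lin.chunks hn hx

/-- blocks of `u.val` elements -/
@[fun_prop]
theorem TC.chunksUn {u : ι → Un} {x : ι → List α} (hu : TC P T u) (hx : TC P T x) :
    TC P T (fun a => X326.chunks (u a).val (x a)) :=
  TC.comp₂ (g := fun (u : Un) (l : List α) => X326.chunks u.val l) Lin.chunks hu hx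

theorem Lin.mergeBy : Lin (fun p : List Bool × List α × List α => mergeBy p.1 p.2.1 p.2.2) :=
  TC.mergeBy TC.id.fst TC.id.snd.fst TC.id.snd.snd

theorem Lin.filterBy : Lin (fun p : List Bool × List α => filterBy p.1 p.2) :=
  TC.filterBy TC.id.fst TC.id.snd


end tc

end Crest.Agent.X326
private theorem rz_a26ab90f69 : type_of% @_root_.Crest.Agent.X326.Mg.aFilter.eq_1 := @_root_.Crest.Agent.X326.Mg.aFilter.eq_1 -- L187
private theorem rz_3598c3bc5a : type_of% @_root_.Crest.Agent.X326.Mg.aMerge.eq_1 := @_root_.Crest.Agent.X326.Mg.aMerge.eq_1 -- L172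
private theorem rz_2613364896 : type_of% @_root_.Crest.Agent.X326.Mg.aSplit.eq_1 := @_root_.Crest.Agent.X326.Mg.aSplit.eq_1 -- L240
private theorem rz_2be67e82e1 : type_of% @_root_.Crest.Agent.X326.Mg.aWalk.eq_1 := @_root_.Crest.Agent.X326.Mg.aWalk.eq_1 -- L202
private theorem rz_c7b03a3f6b : type_of% @_root_.Crest.Agent.X326.chunks.eq_1 := @_root_.Crest.Agent.X326.chunks.eq_1 -- L52
private theorem rz_4e7821a45a : type_of% @_root_.Crest.Agent.X326.filterBy.eq_def := @_root_.Crest.Agent.X326.filterBy.eq_def -- L35
private theorem rz_047bdc0e60 : type_of% @_root_.Crest.Agent.X326.filterBy.eq_1 := @_root_.Crest.Agent.X326.filterBy.eq_1 -- L35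
private theorem rz_84ca7770ff : type_of% @_root_.Crest.Agent.X326.mergeBy.eq_def := @_root_.Crest.Agent.X326.mergeBy.eq_def -- L29
private theorem rz_290f0700b8 : type_of% @_root_.Crest.Agent.X326.mergeBy.eq_1 := @_root_.Crest.Agent.X326.mergeBy.eq_1 -- L29
private theorem rz_3c5706a1c0 : type_of% @_root_.Crest.Agent.X326.walk.eq_def := @_root_.Crest.Agent.X326.walk.eq_def -- L41
private theorem rz_1518d69e38 : type_of% @_root_.Crest.Agent.X326.walk.eq_1 := @_root_.Crest.Agent.X326.walk.eq_1 -- L41
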